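import Vale.Agent.Lib.P344.ScalarBound

/-!
# The number of additive gates: elimination of variables
-/

namespace Vale.Agent.Lib.P344

open Classical

/-- first operand -/
def Gate.fst : Gate → ℕ
  | Gate.add i _ => i
  | Gate.sub i _ => i
  | Gate.smul _ i => i

/-- second operand -/
def Gate.snd : Gate → ℕ
  | Gate.add _ j => j
  | Gate.sub _ j => j
  | Gate.smul _ i => i

/-- sign of an additive gate -/
def Gate.sgn : Gate → ℂ
  | Gate.add _ _ => 1
  | Gate.sub _ _ => -1
  | Gate.smul _ _ => 1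

/-- scalar of a scalar gate -/
def Gate.scal : Gate → ℂ
  | Gate.add _ _ => 1
  | Gate.sub _ _ => 1
  | Gate.smul c _ => c

theorem Gate.sgn_ne_zero (g : Gate) : g.sgn ≠ 0 := by
  cases g <;> simp [Gate.sgn]

theorem Gate.eval_additive {M : Type} [AddCommGroup M] [Module ℂ M] (g : Gate)
    (hg : ¬ g.isSmul = true) (f : ℕ → M) : g.eval f = f g.fst + g.sgn • f g.snd := by
  cases g with
  | add i j => simp [Gate.eval, Gate.fst, Gate.snd, Gate.sgn]
  | sub i j => simp [Gate.eval, Gate.fst, Gate.snd, Gate.sgn, sub_eq_add_neg]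
  | smul c i => simp [Gate.isSmul] at hg

theorem Gate.eval_scalar {M : Type} [AddCommGroup M] [Module ℂ M] (g : Gate)
    (hg : g.isSmul = true) (f : ℕ → M) : g.eval f = g.scal • f g.fst := by
  cases g with
  | add i j => simp [Gate.isSmul] at hg
  | sub i j => simp [Gate.isSmul] at hg
  | smul c i => simp [Gate.eval, Gate.fst, Gate.scal]

variable {n : ℕ}

/-- `u` and `w` are linearly dependent on the set `S` of coordinates. -/
def Dep (S : Finset (Fin n)) (u w : Fin n → ℂ) : Prop :=
  ∃ α β : ℂ, (α ≠ 0 ∨ β ≠ 0) ∧ ∀ l ∈ S, α * u l + β * w l = 0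

theorem Dep.mono {S S' : Finset (Fin n)} (hS : S' ⊆ S) {u w : Fin n → ℂ} (h : Dep S u w) :
    Dep S' u w := by
  obtain ⟨α, β, h1, h2⟩ := h
  exact ⟨α, β, h1, fun l hl => h2 l (hS hl)⟩

theorem Dep.result {S : Finset (Fin n)} {u w : Fin n → ℂ} (h : Dep S u w) (ε : ℂ) :
    ∃ c : ℂ, (∀ l ∈ S, u l + ε * w l = c * u l) ∨ (∀ l ∈ S, u l + ε * w l = c * w l) := by
  obtain ⟨α, β, h1, h2⟩ := h
  by_cases hβ : β = 0
  · have hα : α ≠ 0 := by tauto
    refine ⟨ε, Or.inr fun l hl => ?_⟩
    have := h2 l hl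
    rw [hβ, zero_mul, add_zero] at this
    have hu : u l = 0 := by
      rcases mul_eq_zero.mp this with h | h
      · exact absurd h hα
      · exact h
    rw [hu, zero_add]
  · refine ⟨1 - ε * α / β, Or.inl fun l hl => ?_⟩
    have := h2 l hl
    have hw : w l = - (α / β) * u l := by
      field_simp
      linear_combination this
    rw [hw]
    ring

theorem dep_of_left_zero {S : Finset (Fin n)} {u w : Fin n → ℂ} (h : ∀ l ∈ S, u l = 0) :
    Dep S u w :=
  ⟨1, 0, Or.inl one_ne_zero, fun l hl => by simp [h l hl]⟩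

theorem dep_of_right_zero {S : Finset (Fin n)} {u w : Fin n → ℂ} (h : ∀ l ∈ S, w l = 0) :
    Dep S u w :=
  ⟨0, 1, Or.inr one_ne_zero, fun l hl => by simp [h l hl]⟩

/-- at most one nonzero coordinate in `S` -/
def Mono (S : Finset (Fin n)) (w : Fin n → ℂ) : Prop :=
  ∀ l ∈ S, ∀ l' ∈ S, w l ≠ 0 → w l' ≠ 0 → l = l'

theorem Mono.of_mul {S : Finset (Fin n)} {w z : Fin n → ℂ} (h : Mono S w) (c : ℂ)
    (hz : ∀ l ∈ S, z l = c * w l) : Mono S z := by
  intro l hl l' hl' h1 h2
  refine h l hl l' hl' ?_ ?_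
  · intro h0; apply h1; rw [hz l hl, h0, mul_zero]
  · intro h0; apply h2; rw [hz l' hl', h0, mul_zero]

theorem mono_zero (S : Finset (Fin n)) : Mono S 0 := by
  intro l _ l' _ h1
  exact absurd rfl h1

theorem mono_single (S : Finset (Fin n)) (i : Fin n) : Mono S (Pi.single i 1) := by
  intro l _ l' _ h1 h2
  have e1 : l = i := by
    by_contra hne
    exact h1 (by simp [hne])
  have e2 : l' = i := by
    by_contra hne
    exact h2 (by simp [hne])
  rw [e1, e2]

/-- the values read by a gate at node `m` -/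
def tv (v : ℕ → (Fin n → ℂ)) (m i : ℕ) : Fin n → ℂ := if i < m then v i else 0

/-- left operand of gate `k` -/
def opL (g : ℕ → Gate) (v : ℕ → (Fin n → ℂ)) (k : ℕ) : Fin n → ℂ := tv v (n + 1 + k) (g k).fst

/-- right operand of gate `k` -/
def opR (g : ℕ → Gate) (v : ℕ → (Fin n → ℂ)) (k : ℕ) : Fin n → ℂ := tv v (n + 1 + k) (g k).snd

/-- The additive gates whose operands are linearly independent on `S`. -/
noncomputable def aliveSet (s : ℕ) (g : ℕ → Gate) (v : ℕ → (Fin n → ℂ)) (S : Finset (Fin n)) :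
    Finset ℕ :=
  (addSet s g).filter (fun k => ¬ Dep S (opL g v k) (opR g v k))

theorem aliveSet_mono (s : ℕ) (g : ℕ → Gate) (v : ℕ → (Fin n → ℂ)) {S S' : Finset (Fin n)}
    (hS : S' ⊆ S) : aliveSet s g v S' ⊆ aliveSet s g v S := by
  intro k hk
  rw [aliveSet, Finset.mem_filter] at hk ⊢
  exact ⟨hk.1, fun hd => hk.2 (hd.mono hS)⟩

section
variable {s : ℕ} {g : ℕ → Gate} {v : ℕ → (Fin n → ℂ)}

theorem IsTrace.gate_additive (h : IsTrace n s g (fun k : Fin n => (Pi.single k 1 : Fin n → ℂ)) v)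
    {k : ℕ} (hk : k ∈ addSet s g) :
    v (n + 1 + k) = opL g v k + (g k).sgn • opR g v k := by
  rw [addSet, Finset.mem_filter, Finset.mem_range] at hk
  rw [h.gate k hk.1, Gate.eval_additive _ hk.2]
  rfl

theorem IsTrace.gate_scalar (h : IsTrace n s g (fun k : Fin n => (Pi.single k 1 : Fin n → ℂ)) v)
    {k : ℕ} (hk : k ∈ smulSet s g) :
    v (n + 1 + k) = (g k).scal • opL g v k := by
  rw [smulSet, Finset.mem_filter, Finset.mem_range] at hk
  rw [h.gate k hk.1, Gate.eval_scalar _ hk.2]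
  rfl

theorem mem_addSet_or_smulSet {k : ℕ} (hk : k < s) : k ∈ addSet s g ∨ k ∈ smulSet s g := by
  by_cases hg : (g k).isSmul = true
  · exact Or.inr (Finset.mem_filter.mpr ⟨Finset.mem_range.mpr hk, hg⟩)
  · exact Or.inl (Finset.mem_filter.mpr ⟨Finset.mem_range.mpr hk, hg⟩)

/-- An induction principle for traces. -/
theorem IsTrace.induction (h : IsTrace n s g (fun k : Fin n => (Pi.single k 1 : Fin n → ℂ)) v)
    (b : ℕ) (P : (Fin n → ℂ) → Prop) (h0 : P 0) (hin : ∀ i : Fin n, P (Pi.single i 1))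
    (hadd : ∀ k ∈ addSet s g, k < b → P (opL g v k) → P (opR g v k) → P (v (n + 1 + k)))
    (hsm : ∀ k ∈ smulSet s g, k < b → P (opL g v k) → P (v (n + 1 + k))) :
    ∀ m, m < n + 1 + b → P (v m) := by
  intro m
  induction m using Nat.strong_induction_on with
  | _ m ih =>
    intro hmb
    rcases node_cases n s m with ⟨i, rfl⟩ | rfl | ⟨k, hk, rfl⟩ | hm
    · rw [h.inp]; exact hin i
    · rw [h.zero]; exact h0
    · have aux : ∀ i, P (tv v (n + 1 + k) i) := by
        intro i
        unfold tv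
        split_ifs with hi
        · exact ih i hi (by omega)
        · exact h0
      rcases mem_addSet_or_smulSet (g := g) hk with hk' | hk'
      · exact hadd k hk' (by omega) (aux _) (aux _)
      · exact hsm k hk' (by omega) (aux _)
    · rw [h.beyond m hm]; exact h0

theorem IsTrace.induction_all (h : IsTrace n s g (fun k : Fin n => (Pi.single k 1 : Fin n → ℂ)) v)
    (P : (Fin n → ℂ) → Prop) (h0 : P 0) (hin : ∀ i : Fin n, P (Pi.single i 1))
    (hadd : ∀ k ∈ addSet s g, P (opL g v k) → P (opR g v k) → P (v (n + 1 + k)))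
    (hsm : ∀ k ∈ smulSet s g, P (opL g v k) → P (v (n + 1 + k))) :
    ∀ m, P (v m) := by
  intro m
  exact h.induction (m + 1) P h0 hin (fun k hk _ => hadd k hk) (fun k hk _ => hsm k hk) m (by omega)

/-- If no additive gate before `b` is alive on `S`, all nodes before gate `b` are monomials. -/
theorem IsTrace.all_mono (h : IsTrace n s g (fun k : Fin n => (Pi.single k 1 : Fin n → ℂ)) v)
    (S : Finset (Fin n)) (b : ℕ) (hb : ∀ k ∈ aliveSet s g v S, b ≤ k) :
    ∀ m, m < n + 1 + b → Mono S (v m) := by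
  refine h.induction b (Mono S) (mono_zero S) (mono_single S) ?_ ?_
  · intro k hk hkb hL hR
    have hdep : Dep S (opL g v k) (opR g v k) := by
      by_contra hnd
      have : k ∈ aliveSet s g v S := Finset.mem_filter.mpr ⟨hk, hnd⟩
      exact absurd (hb k this) (by omega)
    obtain ⟨c, hc | hc⟩ := hdep.result (g k).sgn
    · refine hL.of_mul c fun l hl => ?_
      rw [h.gate_additive hk]
      simpa using hc l hl
    · refine hR.of_mul c fun l hl => ?_
      rw [h.gate_additive hk]
      simpa using hc l hl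
  · intro k hk _ hL
    refine hL.of_mul (g k).scal fun l _ => ?_
    rw [h.gate_scalar hk]
    simp

theorem tv_mono_of (S : Finset (Fin n)) (m : ℕ) (hm : ∀ i, i < m → Mono S (v i)) (i : ℕ) :
    Mono S (tv v m i) := by
  unfold tv
  split_ifs with hi
  · exact hm i hi
  · exact mono_zero S

end

end Vale.Agent.Lib.P344
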