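import Vale.Agent.Lib.P344.Elim

/-!
# Counting alive gates on a fixed set of coordinates: classes of outputs and the tree bound
-/

namespace Vale.Agent.Lib.P344

open Classical

variable {n : ℕ}

/-- all coordinates in `S` are nonzero -/
def FullOn (S : Finset (Fin n)) (x : Fin n → ℂ) : Prop := ∀ l ∈ S, x l ≠ 0

/-- `x` is a nonzero multiple of `y` on `S` -/
def PropOn (S : Finset (Fin n)) (x y : Fin n → ℂ) : Prop := ∃ c : ℂ, c ≠ 0 ∧ ∀ l ∈ S, x l = c * y l

theorem PropOn.trans {S : Finset (Fin n)} {x y z : Fin n → ℂ} (h1 : PropOn S x y)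
    (h2 : PropOn S y z) : PropOn S x z := by
  obtain ⟨c, hc, h1⟩ := h1
  obtain ⟨d, hd, h2⟩ := h2
  exact ⟨c * d, mul_ne_zero hc hd, fun l hl => by rw [h1 l hl, h2 l hl, mul_assoc]⟩

theorem PropOn.symm {S : Finset (Fin n)} {x y : Fin n → ℂ} (h1 : PropOn S x y) : PropOn S y x := by
  obtain ⟨c, hc, h1⟩ := h1
  exact ⟨c⁻¹, inv_ne_zero hc, fun l hl => by rw [h1 l hl, inv_mul_cancel_left₀ hc]⟩

theorem PropOn.fullOn {S : Finset (Fin n)} {x y : Fin n → ℂ} (h1 : PropOn S x y)
    (hy : FullOn S y) : FullOn S x := by
  obtain ⟨c, hc, h1⟩ := h1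
  intro l hl
  rw [h1 l hl]
  exact mul_ne_zero hc (hy l hl)

/-- the row of the Fourier matrix with index `r` -/
noncomputable def row (n : ℕ) (r : Fin n) : Fin n → ℂ := fun k => zeta n ^ ((r : ℕ) * (k : ℕ))

theorem row_fullOn (S : Finset (Fin n)) (r : Fin n) : FullOn S (row n r) :=
  fun _ _ => pow_ne_zero _ (zeta_ne_zero n)

variable {s : ℕ} {g : ℕ → Gate} {v : ℕ → (Fin n → ℂ)}

/-- If `z = c * x` on `S`, `z` is proportional to the full vector `y`, then so is `x`. -/
theorem propOn_of_mul {S : Finset (Fin n)} (hS : S.Nonempty) {x y z : Fin n → ℂ} (c : ℂ)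
    (hz : ∀ l ∈ S, z l = c * x l) (hzy : PropOn S z y) (hy : FullOn S y) : PropOn S x y := by
  obtain ⟨d, hd, h1⟩ := hzy
  obtain ⟨l₀, hl₀⟩ := hS
  have hc : c ≠ 0 := by
    rintro rfl
    have := h1 l₀ hl₀
    rw [hz l₀ hl₀, zero_mul] at this
    exact mul_ne_zero hd (hy l₀ hl₀) this.symm
  refine ⟨c⁻¹ * d, mul_ne_zero (inv_ne_zero hc) hd, fun l hl => ?_⟩
  have := h1 l hl
  rw [hz l hl] at this
  rw [mul_assoc, ← this, inv_mul_cancel_left₀ hc]

/-- The first node whose value is proportional on `S` to a given full vector `y` (with `|S| ≥ 2`)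
is an alive additive gate. -/
theorem first_class_alive (h : IsTrace n s g (fun k : Fin n => (Pi.single k 1 : Fin n → ℂ)) v)
    (S : Finset (Fin n)) (hS : 2 ≤ S.card) (y : Fin n → ℂ) (hy : FullOn S y) (m : ℕ)
    (hm : PropOn S (v m) y) (hmin : ∀ m' < m, ¬ PropOn S (v m') y) :
    ∃ k ∈ aliveSet s g v S, m = n + 1 + k := by
  obtain ⟨l, hl, l', hl', hll⟩ := Finset.one_lt_card.mp hS
  have hSne : S.Nonempty := ⟨l, hl⟩
  have hfull : FullOn S (v m) := hm.fullOn hy
  have htv : ∀ i, ¬ PropOn S (tv v m i) y := by
    intro i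
    unfold tv
    split_ifs with hi
    · exact hmin i hi
    · intro hp
      exact (hp.fullOn hy) l hl rfl
  rcases node_cases n s m with ⟨i, rfl⟩ | rfl | ⟨k, hk, rfl⟩ | hmb
  · exfalso
    rw [h.inp] at hfull
    exact hll (mono_single S i l hl l' hl' (hfull l hl) (hfull l' hl'))
  · exfalso
    rw [h.zero] at hfull
    exact hfull l hl rfl
  · rcases mem_addSet_or_smulSet (g := g) hk with hk' | hk'
    · refine ⟨k, Finset.mem_filter.mpr ⟨hk', ?_⟩, rfl⟩
      intro hdep
      obtain ⟨c, hc | hc⟩ := hdep.result (g k).sgn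
      · refine htv (g k).fst (propOn_of_mul hSne c (fun l hl => ?_) hm hy)
        rw [h.gate_additive hk']
        simpa [opL] using hc l hl
      · refine htv (g k).snd (propOn_of_mul hSne c (fun l hl => ?_) hm hy)
        rw [h.gate_additive hk']
        simpa [opR] using hc l hl
    · exfalso
      refine htv (g k).fst (propOn_of_mul hSne (g k).scal (fun l _ => ?_) hm hy)
      rw [h.gate_scalar hk']
      simp [opL]
  · exfalso
    rw [h.beyond m hmb] at hfull
    exact hfull l hl rfl

/-- alive gates whose value is full on `S` -/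
noncomputable def fullSet (s : ℕ) (g : ℕ → Gate) (v : ℕ → (Fin n → ℂ)) (S : Finset (Fin n)) :
    Finset ℕ :=
  (aliveSet s g v S).filter (fun k => FullOn S (v (n + 1 + k)))

theorem card_fullSet_ge (h : IsTrace n s g (fun k : Fin n => (Pi.single k 1 : Fin n → ℂ)) v)
    (hrows : HasRows v) (S : Finset (Fin n)) (hS : 2 ≤ S.card)
    (hnp : ∀ r r' : Fin n, r ≠ r' → ¬ PropOn S (row n r) (row n r')) :
    n ≤ (fullSet s g v S).card := by
  have hex : ∀ r : Fin n, ∃ m, PropOn S (v m) (row n r) := by
    intro r
    obtain ⟨m, hm⟩ := hrows r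
    exact ⟨m, 1, one_ne_zero, fun l _ => by rw [hm]; simp [row]⟩
  have hkey : ∀ r : Fin n, ∃ k ∈ fullSet s g v S, PropOn S (v (n + 1 + k)) (row n r) := by
    intro r
    have h1 := Nat.find_spec (hex r)
    have h2 : ∀ m' < Nat.find (hex r), ¬ PropOn S (v m') (row n r) :=
      fun m' hm' => Nat.find_min (hex r) hm'
    obtain ⟨k, hk, hmk⟩ := first_class_alive h S hS (row n r) (row_fullOn S r) _ h1 h2
    rw [hmk] at h1
    exact ⟨k, Finset.mem_filter.mpr ⟨hk, h1.fullOn (row_fullOn S r)⟩, h1⟩
  choose f hf1 hf2 using hkey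
  have hinj : Function.Injective f := by
    intro r r' hrr
    by_contra hne
    apply hnp r r' hne
    have h1 := hf2 r
    have h2 := hf2 r'
    rw [hrr] at h1
    exact h1.symm.trans h2
  have := Finset.card_le_card_of_injOn (s := Finset.univ) (t := fullSet s g v S) f
    (fun r _ => hf1 r) (fun a _ b _ hab => hinj hab)
  simpa using this

/-- A colouring of `S` such that the support of every node before gate `b` is monochromatic and
such that the number of colours is at least `|S|` minus the number of alive gates before `b`. -/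
theorem coloring (h : IsTrace n s g (fun k : Fin n => (Pi.single k 1 : Fin n → ℂ)) v)
    (S : Finset (Fin n)) (b : ℕ) :
    ∃ c : Fin n → ℕ,
      S.card ≤ (S.image c).card + ((aliveSet s g v S).filter (fun k => k < b)).card ∧
      ∀ m < n + 1 + b, ∀ l ∈ S, ∀ l' ∈ S, v m l ≠ 0 → v m l' ≠ 0 → c l = c l' := by
  induction b with
  | zero =>
    refine ⟨fun l => l.val, ?_, ?_⟩
    · rw [Finset.card_image_of_injective S Fin.val_injective]
      omega
    · intro m hm l hl l' hl' h1 h2
      rcases node_cases n s m with ⟨i, rfl⟩ | rfl | ⟨k, hk, rfl⟩ | hmb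
      · rw [h.inp] at h1 h2
        rw [mono_single S i l hl l' hl' h1 h2]
      · rw [h.zero] at h1
        exact absurd rfl h1
      · omega
      · omega
  | succ b ih =>
    obtain ⟨c, hc1, hc2⟩ := ih
    have htv : ∀ i, ∀ l ∈ S, ∀ l' ∈ S, tv v (n + 1 + b) i l ≠ 0 → tv v (n + 1 + b) i l' ≠ 0 →
        c l = c l' := by
      intro i
      unfold tv
      split_ifs with hi
      · exact hc2 i hi
      · intro l _ l' _ h1
        exact absurd rfl h1
    have of_mul : ∀ (x z : Fin n → ℂ) (d : ℂ),
        (∀ l ∈ S, ∀ l' ∈ S, x l ≠ 0 → x l' ≠ 0 → c l = c l') → (∀ l ∈ S, z l = d * x l) →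
        (∀ l ∈ S, ∀ l' ∈ S, z l ≠ 0 → z l' ≠ 0 → c l = c l') := by
      intro x z d hx hz l hl l' hl' h1 h2
      refine hx l hl l' hl' ?_ ?_
      · intro h0; apply h1; rw [hz l hl, h0, mul_zero]
      · intro h0; apply h2; rw [hz l' hl', h0, mul_zero]
    by_cases hb : b ∈ aliveSet s g v S
    · -- recolour
      have hbadd : b ∈ addSet s g := (Finset.mem_filter.mp hb).1
      have hndep : ¬ Dep S (opL g v b) (opR g v b) := (Finset.mem_filter.mp hb).2
      obtain ⟨lu, hluS, hlu⟩ : ∃ i ∈ S, opL g v b i ≠ 0 := by
        by_contra hcon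
        push Not at hcon
        exact hndep (dep_of_left_zero hcon)
      obtain ⟨lw, hlwS, hlw⟩ : ∃ j ∈ S, opR g v b j ≠ 0 := by
        by_contra hcon
        push Not at hcon
        exact hndep (dep_of_right_zero hcon)
      refine ⟨fun l => if c l = c lw then c lu else c l, ?_, ?_⟩
      · have h1 : (S.image c).erase (c lw) ⊆ S.image (fun l => if c l = c lw then c lu else c l) := by
          intro y hy
          obtain ⟨hy1, hy2⟩ := Finset.mem_erase.mp hy
          obtain ⟨l, hl, rfl⟩ := Finset.mem_image.mp hy2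
          exact Finset.mem_image.mpr ⟨l, hl, by simp [hy1]⟩
        have h2 := Finset.card_le_card h1
        have h3 := Finset.pred_card_le_card_erase (s := S.image c) (a := c lw)
        have h4 : (aliveSet s g v S).filter (fun k => k < b + 1)
            = insert b ((aliveSet s g v S).filter (fun k => k < b)) := by
          ext k
          simp only [Finset.mem_filter, Finset.mem_insert]
          constructor
          · rintro ⟨hk1, hk2⟩
            by_cases hkb : k = b
            · exact Or.inl hkb
            · exact Or.inr ⟨hk1, by omega⟩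
          · rintro (rfl | ⟨hk1, hk2⟩)
            · exact ⟨hb, by omega⟩
            · exact ⟨hk1, by omega⟩
        rw [h4, Finset.card_insert_of_notMem (by simp)]
        omega
      · intro m hm l hl l' hl' h1 h2
        by_cases hmb : m < n + 1 + b
        · have := hc2 m hmb l hl l' hl' h1 h2
          simp only [this]
        · have hmeq : m = n + 1 + b := by omega
          subst hmeq
          have key : ∀ l ∈ S, v (n + 1 + b) l ≠ 0 → (if c l = c lw then c lu else c l) = c lu := by
            intro l hl hne
            rw [h.gate_additive hbadd] at hne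
            simp only [Pi.add_apply, Pi.smul_apply, smul_eq_mul] at hne
            by_cases hul : opL g v b l = 0
            · have hwl : opR g v b l ≠ 0 := by
                intro h0
                apply hne
                rw [hul, h0]; simp
              have : c l = c lw := htv _ l hl lw hlwS hwl hlw
              simp [this]
            · have : c l = c lu := htv _ l hl lu hluS hul hlu
              simp [this]
          exact (key l hl h1).trans (key l' hl' h2).symm
    · refine ⟨c, ?_, ?_⟩
      · refine hc1.trans (Nat.add_le_add_left (Finset.card_le_card ?_) _)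
        intro k hk
        rw [Finset.mem_filter] at hk ⊢
        exact ⟨hk.1, by omega⟩
      · intro m hm
        by_cases hmb : m < n + 1 + b
        · exact hc2 m hmb
        · have hmeq : m = n + 1 + b := by omega
          subst hmeq
          by_cases hbs : b < s
          · rcases mem_addSet_or_smulSet (g := g) hbs with hk' | hk'
            · have hdep : Dep S (opL g v b) (opR g v b) := by
                by_contra hnd
                exact hb (Finset.mem_filter.mpr ⟨hk', hnd⟩)
              obtain ⟨d, hd | hd⟩ := hdep.result (g b).sgn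
              · refine of_mul _ _ d (htv (g b).fst) fun l hl => ?_
                rw [h.gate_additive hk']
                simpa [opL] using hd l hl
              · refine of_mul _ _ d (htv (g b).snd) fun l hl => ?_
                rw [h.gate_additive hk']
                simpa [opR] using hd l hl
            · refine of_mul _ _ (g b).scal (htv (g b).fst) fun l _ => ?_
              rw [h.gate_scalar hk']
              simp [opL]
          · intro l _ l' _ h1
            rw [h.beyond _ (by omega)] at h1
            exact absurd rfl h1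

theorem card_aliveSet_ge_of_full (h : IsTrace n s g (fun k : Fin n => (Pi.single k 1 : Fin n → ℂ)) v)
    (S : Finset (Fin n)) (hF : (fullSet s g v S).Nonempty) :
    S.card + (fullSet s g v S).card ≤ (aliveSet s g v S).card + 2 := by
  obtain ⟨k₀, hk₀mem, hmin⟩ : ∃ k₀ ∈ fullSet s g v S, ∀ k ∈ fullSet s g v S, k₀ ≤ k :=
    ⟨(fullSet s g v S).min' hF, Finset.min'_mem _ _, fun k hk => Finset.min'_le _ _ hk⟩
  obtain ⟨c, hc1, hc2⟩ := coloring h S (k₀ + 1)
  have hfull : FullOn S (v (n + 1 + k₀)) := (Finset.mem_filter.mp hk₀mem).2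
  have h1 : (S.image c).card ≤ 1 := by
    rw [Finset.card_le_one]
    intro a ha b hb
    obtain ⟨l, hl, rfl⟩ := Finset.mem_image.mp ha
    obtain ⟨l', hl', rfl⟩ := Finset.mem_image.mp hb
    exact hc2 (n + 1 + k₀) (by omega) l hl l' hl' (hfull l hl) (hfull l' hl')
  have h2 : (aliveSet s g v S).filter (fun k => k < k₀ + 1)
      ⊆ insert k₀ (aliveSet s g v S \ fullSet s g v S) := by
    intro k hk
    obtain ⟨hk1, hk2⟩ := Finset.mem_filter.mp hk
    by_cases hkk : k = k₀
    · exact Finset.mem_insert.mpr (Or.inl hkk)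
    · refine Finset.mem_insert.mpr (Or.inr (Finset.mem_sdiff.mpr ⟨hk1, fun hkf => ?_⟩))
      have := hmin k hkf
      omega
  have h3 := Finset.card_le_card h2
  have h4 := Finset.card_insert_le k₀ (aliveSet s g v S \ fullSet s g v S)
  have h5 : (aliveSet s g v S \ fullSet s g v S).card
      = (aliveSet s g v S).card - (fullSet s g v S).card :=
    Finset.card_sdiff_of_subset (Finset.filter_subset _ _)
  have h6 : (fullSet s g v S).card ≤ (aliveSet s g v S).card :=
    Finset.card_le_card (Finset.filter_subset _ _)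
  omega

end Vale.Agent.Lib.P344
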