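import Mathlib

/-!
# Linear circuits for the discrete Fourier transform (P344): definitions
-/

namespace Vale.Agent.Lib.P344

/-- A gate of a linear circuit.  The natural numbers are the indices of the nodes the gate reads:
`add i j`, `sub i j`, `smul c i` compute `u + v`, `u - v`, `c * u` from the values `u`, `v`
carried by the nodes `i`, `j`. -/
inductive Gate : Type
  | add (i j : ℕ)
  | sub (i j : ℕ)
  | smul (c : ℂ) (i : ℕ)

/-- The value computed by a gate when node `i` carries the value `v i`. -/
def Gate.eval {M : Type} [AddCommGroup M] [Module ℂ M] (g : Gate) (v : ℕ → M) : M :=
  match g with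
  | Gate.add i j => v i + v j
  | Gate.sub i j => v i - v j
  | Gate.smul c i => c • v i

/-- Run the gates in order.  `vals` is the list of the values computed so far (node `i` is entry
`i` of the list).  Each gate reads entries of the current list, hence only previously computed
values (an index out of range reads as the constant `0`), and appends its own value. -/
def run {M : Type} [AddCommGroup M] [Module ℂ M] : List Gate → List M → List M
  | [], vals => vals
  | g :: gs, vals => run gs (vals ++ [g.eval (fun i => vals.getD i 0)])

/-- A linear circuit with `n` inputs and `n` designated outputs: its gates, in the order in which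
they are evaluated, and the indices of the output nodes. -/
structure Circuit (n : ℕ) where
  gates : List Gate
  out : Fin n → ℕ

/-- The number of gates; every gate (addition, subtraction, scalar multiplication) costs one. -/
def Circuit.size {n : ℕ} (C : Circuit n) : ℕ := C.gates.length

/-- All node values on input `x`: nodes `0, …, n-1` are the inputs, node `n` is the constant `0`,
node `n + 1 + k` is the `k`-th gate. -/
def Circuit.values {M : Type} [AddCommGroup M] [Module ℂ M] {n : ℕ} (C : Circuit n)
    (x : Fin n → M) : List M :=
  run C.gates (List.ofFn x ++ [0])

/-- `ζ_n = exp (2 π i / n)`. -/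
noncomputable def zeta (n : ℕ) : ℂ := Complex.exp (2 * Real.pi * Complex.I / n)

/-- The circuit computes the unnormalized discrete Fourier transform `x ↦ F_n x`,
`(F_n x)_j = ∑_k ζ_n ^ (j k) x_k`, exactly, for every input `x`. -/
def Circuit.ComputesDFT {n : ℕ} (C : Circuit n) : Prop :=
  ∀ (x : Fin n → ℂ) (j : Fin n),
    (C.values x).getD (C.out j) 0 = ∑ k : Fin n, zeta n ^ ((j : ℕ) * (k : ℕ)) * x k

end Vale.Agent.Lib.P344
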