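import Vale.Agent.Lib.P344.AddBound

/-!
# Eliminating one variable kills two additive gates
-/

namespace Vale.Agent.Lib.P344

open Classical

variable {n : ℕ}

/-- All rows of the Fourier matrix occur among the node values. -/
def HasRows (v : ℕ → (Fin n → ℂ)) : Prop :=
  ∀ r : Fin n, ∃ m, v m = fun k : Fin n => zeta n ^ ((r : ℕ) * (k : ℕ))

theorem zeta_ne_zero (n : ℕ) : zeta n ≠ 0 := Complex.exp_ne_zero _

variable {s : ℕ} {g : ℕ → Gate} {v : ℕ → (Fin n → ℂ)}

theorem aliveSet_nonempty (h : IsTrace n s g (fun k : Fin n => (Pi.single k 1 : Fin n → ℂ)) v)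
    (hrows : HasRows v) (S : Finset (Fin n)) (hS : 2 ≤ S.card) :
    (aliveSet s g v S).Nonempty := by
  by_contra hne
  rw [Finset.not_nonempty_iff_eq_empty] at hne
  obtain ⟨l, hl, l', hl', hll⟩ := Finset.one_lt_card.mp hS
  obtain ⟨m, hm⟩ := hrows l
  have hmono : Mono S (v m) :=
    h.all_mono S (m + 1) (by rw [hne]; intro k hk; simp at hk) m (by omega)
  apply hll
  apply hmono l hl l' hl'
  · rw [hm]; exact pow_ne_zero _ (zeta_ne_zero n)
  · rw [hm]; exact pow_ne_zero _ (zeta_ne_zero n)

theorem exists_erase (h : IsTrace n s g (fun k : Fin n => (Pi.single k 1 : Fin n → ℂ)) v)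
    (hrows : HasRows v) (S : Finset (Fin n)) (hS : 2 ≤ S.card) :
    ∃ i ∈ S, (aliveSet s g v (S.erase i)).card + 2 ≤ (aliveSet s g v S).card := by
  have hne := aliveSet_nonempty h hrows S hS
  obtain ⟨k₀, hk₀mem, hmin⟩ : ∃ k₀ ∈ aliveSet s g v S, ∀ k ∈ aliveSet s g v S, k₀ ≤ k :=
    ⟨(aliveSet s g v S).min' hne, Finset.min'_mem _ _, fun k hk => Finset.min'_le _ _ hk⟩
  have hmono := h.all_mono S k₀ hmin
  have hk₀add : k₀ ∈ addSet s g := (Finset.mem_filter.mp hk₀mem).1
  have hndep : ¬ Dep S (opL g v k₀) (opR g v k₀) := (Finset.mem_filter.mp hk₀mem).2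
  have ha : v (n + 1 + k₀) = opL g v k₀ + (g k₀).sgn • opR g v k₀ := h.gate_additive hk₀add
  have hu : Mono S (opL g v k₀) := tv_mono_of S _ hmono _
  have hw : Mono S (opR g v k₀) := tv_mono_of S _ hmono _
  obtain ⟨i, hiS, hui⟩ : ∃ i ∈ S, opL g v k₀ i ≠ 0 := by
    by_contra hcon
    push Not at hcon
    exact hndep (dep_of_left_zero hcon)
  obtain ⟨j, hjS, hwj⟩ : ∃ j ∈ S, opR g v k₀ j ≠ 0 := by
    by_contra hcon
    push Not at hcon
    exact hndep (dep_of_right_zero hcon)
  have hij : i ≠ j := by
    rintro rfl
    apply hndep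
    refine ⟨opR g v k₀ i, - opL g v k₀ i, Or.inl hwj, fun l hl => ?_⟩
    by_cases hl' : l = i
    · subst hl'; ring
    · have h1 : opL g v k₀ l = 0 := by
        by_contra h0; exact hl' (hu l hl i hiS h0 hui)
      have h2 : opR g v k₀ l = 0 := by
        by_contra h0; exact hl' (hw l hl i hiS h0 hwj)
      simp [h1, h2]
  have hwi : opR g v k₀ i = 0 := by
    by_contra h0; exact hij (hw i hiS j hjS h0 hwj)
  have huj : opL g v k₀ j = 0 := by
    by_contra h0; exact hij (hu i hiS j hjS hui h0)
  have hai : v (n + 1 + k₀) i = opL g v k₀ i := by simp [ha, hwi]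
  have haj : v (n + 1 + k₀) j = (g k₀).sgn * opR g v k₀ j := by simp [ha, huj]
  have hai0 : v (n + 1 + k₀) i ≠ 0 := by rw [hai]; exact hui
  have hdi : k₀ ∉ aliveSet s g v (S.erase i) := by
    intro hmem
    apply (Finset.mem_filter.mp hmem).2
    apply dep_of_left_zero
    intro l hl
    have hl2 := Finset.mem_erase.mp hl
    by_contra h0
    exact hl2.1 (hu l hl2.2 i hiS h0 hui)
  have hdj : k₀ ∉ aliveSet s g v (S.erase j) := by
    intro hmem
    apply (Finset.mem_filter.mp hmem).2
    apply dep_of_right_zero
    intro l hl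
    have hl2 := Finset.mem_erase.mp hl
    by_contra h0
    exact hl2.1 (hw l hl2.2 j hjS h0 hwj)
  by_contra hcon
  push Not at hcon
  have Hgen : ∀ t ∈ S, k₀ ∉ aliveSet s g v (S.erase t) →
      ∀ k ∈ aliveSet s g v S, k ∉ aliveSet s g v (S.erase t) → k = k₀ := by
    intro t htS hdt k hk hk'
    by_contra hne'
    have hsub : insert k (insert k₀ (aliveSet s g v (S.erase t))) ⊆ aliveSet s g v S := by
      intro x hx
      rcases Finset.mem_insert.mp hx with rfl | hx
      · exact hk
      rcases Finset.mem_insert.mp hx with rfl | hx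
      · exact hk₀mem
      · exact aliveSet_mono s g v (Finset.erase_subset _ _) hx
    have hcard : (insert k (insert k₀ (aliveSet s g v (S.erase t)))).card
        = (aliveSet s g v (S.erase t)).card + 2 := by
      rw [Finset.card_insert_of_notMem, Finset.card_insert_of_notMem hdt]
      simp [hne', hk']
    have h1 := Finset.card_le_card hsub
    have h2 := hcon t htS
    omega
  have Hi := Hgen i hiS hdi
  have Hj := Hgen j hjS hdj
  -- the trichotomy
  set a := v (n + 1 + k₀) with hadef
  let P : (Fin n → ℂ) → Prop := fun x =>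
    x i * a j = x j * a i ∨ (∀ l ∈ S, l ≠ i → x l = 0) ∨ (∀ l ∈ S, l ≠ j → x l = 0)
  have P_of_mul : ∀ (x z : Fin n → ℂ) (c : ℂ), P x → (∀ l ∈ S, z l = c * x l) → P z := by
    intro x z c hx hz
    rcases hx with hx | hx | hx
    · left
      rw [hz i hiS, hz j hjS]
      linear_combination c * hx
    · right; left
      intro l hl hne'
      rw [hz l hl, hx l hl hne', mul_zero]
    · right; right
      intro l hl hne'
      rw [hz l hl, hx l hl hne', mul_zero]
  have hP : ∀ m, P (v m) := by
    refine h.induction_all P ?_ ?_ ?_ ?_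
    · left; simp
    · intro t
      by_cases hti : t = i
      · right; left
        intro l _ hl
        simp [hti, hl]
      by_cases htj : t = j
      · right; right
        intro l _ hl
        simp [htj, hl]
      · left
        simp [Ne.symm hti, Ne.symm htj]
    · intro k hk hL hR
      by_cases hkk : k = k₀
      · left
        rw [hkk]
        exact mul_comm _ _
      by_cases hdep : Dep S (opL g v k) (opR g v k)
      · obtain ⟨c, hc | hc⟩ := hdep.result (g k).sgn
        · refine P_of_mul _ _ c hL fun l hl => ?_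
          rw [h.gate_additive hk]
          simpa using hc l hl
        · refine P_of_mul _ _ c hR fun l hl => ?_
          rw [h.gate_additive hk]
          simpa using hc l hl
      · have hkS : k ∈ aliveSet s g v S := Finset.mem_filter.mpr ⟨hk, hdep⟩
        have hki : ¬ Dep (S.erase i) (opL g v k) (opR g v k) := by
          have : k ∈ aliveSet s g v (S.erase i) := by
            by_contra hcon'
            exact hkk (Hi k hkS hcon')
          exact (Finset.mem_filter.mp this).2
        have hkj : ¬ Dep (S.erase j) (opL g v k) (opR g v k) := by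
          have : k ∈ aliveSet s g v (S.erase j) := by
            by_contra hcon'
            exact hkk (Hj k hkS hcon')
          exact (Finset.mem_filter.mp this).2
        have gL : opL g v k i * a j = opL g v k j * a i := by
          rcases hL with hx | hx | hx
          · exact hx
          · exact absurd (dep_of_left_zero fun l hl =>
              hx l (Finset.mem_erase.mp hl).2 (Finset.mem_erase.mp hl).1) hki
          · exact absurd (dep_of_left_zero fun l hl =>
              hx l (Finset.mem_erase.mp hl).2 (Finset.mem_erase.mp hl).1) hkj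
        have gR : opR g v k i * a j = opR g v k j * a i := by
          rcases hR with hx | hx | hx
          · exact hx
          · exact absurd (dep_of_right_zero fun l hl =>
              hx l (Finset.mem_erase.mp hl).2 (Finset.mem_erase.mp hl).1) hki
          · exact absurd (dep_of_right_zero fun l hl =>
              hx l (Finset.mem_erase.mp hl).2 (Finset.mem_erase.mp hl).1) hkj
        left
        rw [h.gate_additive hk]
        simp only [Pi.add_apply, Pi.smul_apply, smul_eq_mul]
        linear_combination gL + (g k).sgn * gR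
    · intro k hk hL
      refine P_of_mul _ _ (g k).scal hL fun l _ => ?_
      rw [h.gate_scalar hk]
      simp
  have hgood : ∀ r : Fin n, zeta n ^ ((r : ℕ) * (i : ℕ)) * a j = zeta n ^ ((r : ℕ) * (j : ℕ)) * a i := by
    intro r
    obtain ⟨m, hm⟩ := hrows r
    have := hP m
    rw [hm] at this
    rcases this with hx | hx | hx
    · exact hx
    · exact absurd (hx j hjS (Ne.symm hij)) (pow_ne_zero _ (zeta_ne_zero n))
    · exact absurd (hx i hiS hij) (pow_ne_zero _ (zeta_ne_zero n))
  have hn2 : 2 ≤ n := by
    have h1 := i.2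
    have h2 := j.2
    have h3 : (i : ℕ) ≠ (j : ℕ) := fun h => hij (Fin.ext h)
    omega
  have e0 := hgood ⟨0, by omega⟩
  have e1 := hgood ⟨1, by omega⟩
  simp only [zero_mul, pow_zero, one_mul] at e0 e1
  rw [e0] at e1
  have e2 : zeta n ^ (i : ℕ) = zeta n ^ (j : ℕ) := mul_right_cancel₀ hai0 e1
  exact hij (Fin.ext ((zeta_isPrimitiveRoot (by omega)).pow_inj i.2 j.2 e2))

/-- At least `2 (|S| - 1)` additive gates are alive on `S`. -/
theorem card_aliveSet_ge (h : IsTrace n s g (fun k : Fin n => (Pi.single k 1 : Fin n → ℂ)) v)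
    (hrows : HasRows v) (m : ℕ) :
    ∀ S : Finset (Fin n), S.card = m + 1 → 2 * m ≤ (aliveSet s g v S).card := by
  induction m with
  | zero => intro S _; simp
  | succ m ih =>
    intro S hS
    obtain ⟨i, hi, hcard⟩ := exists_erase h hrows S (by omega)
    have := ih (S.erase i) (by rw [Finset.card_erase_of_mem hi]; omega)
    omega

theorem card_addSet_ge (h : IsTrace n s g (fun k : Fin n => (Pi.single k 1 : Fin n → ℂ)) v)
    (hrows : HasRows v) (hn : 1 ≤ n) : 2 * (n - 1) ≤ (addSet s g).card := by
  have h1 := card_aliveSet_ge h hrows (n - 1) Finset.univ (by simp; omega)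
  exact h1.trans (Finset.card_le_card (Finset.filter_subset _ _))

end Vale.Agent.Lib.P344
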