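import Vale.Agent.Lib.P344.Trace

/-!
# Rational linear relations between rows of the Fourier matrix
-/

namespace Vale.Agent.Lib.P344

open Polynomial

theorem zeta_isPrimitiveRoot {n : ℕ} (hn : n ≠ 0) : IsPrimitiveRoot (zeta n) n :=
  Complex.isPrimitiveRoot_exp n hn

theorem aeval_pow_coprime {n : ℕ} (hn : 0 < n) {ζ : ℂ} (hζ : IsPrimitiveRoot ζ n) (P : ℚ[X])
    (q : ℚ) (h : aeval ζ P = (q : ℂ)) {a : ℕ} (ha : a.Coprime n) :
    aeval (ζ ^ a) P = (q : ℂ) := by
  have h0 : aeval ζ (P - C q) = 0 := by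
    simp [h]
  have hd : cyclotomic n ℚ ∣ P - C q := by
    rw [cyclotomic_eq_minpoly_rat hζ hn]
    exact minpoly.dvd ℚ ζ h0
  obtain ⟨R, hR⟩ := hd
  have h1 : aeval (ζ ^ a) (cyclotomic n ℚ) = 0 := by
    rw [cyclotomic_eq_minpoly_rat (hζ.pow_of_coprime a ha) hn]
    exact minpoly.aeval ℚ _
  have h2 : aeval (ζ ^ a) (P - C q) = 0 := by
    rw [hR, map_mul, h1, zero_mul]
  have h3 : aeval (ζ ^ a) (P - C q) = aeval (ζ ^ a) P - (q : ℂ) := by
    simp
  rw [h3] at h2
  exact sub_eq_zero.mp h2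

theorem pow_mod_of_primitive {n : ℕ} {ζ : ℂ} (hζ : IsPrimitiveRoot ζ n) (m : ℕ) :
    ζ ^ (m % n) = ζ ^ m := by
  rw [hζ.eq_orderOf]
  exact pow_mod_orderOf ζ m

/-- Injectivity of the Fourier transform, in the form we need. -/
theorem dft_injective {n : ℕ} [NeZero n] {ζ : ℂ} (hζ : IsPrimitiveRoot ζ n) (d : ZMod n → ℂ)
    (h : ∀ k : Fin n, ∑ j : ZMod n, d j * ζ ^ (j.val * (k : ℕ)) = 0) : d = 0 := by
  classical
  set p : ℂ[X] := ∑ j : ZMod n, C (d j) * X ^ j.val with hp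
  have hdeg : p.natDegree < Fintype.card (Fin n) := by
    rw [Fintype.card_fin]
    have hle : p.degree < (n : WithBot ℕ) := by
      refine lt_of_le_of_lt (degree_sum_le _ _) ?_
      rw [Finset.sup_lt_iff (by exact WithBot.bot_lt_coe n)]
      intro j _
      refine lt_of_le_of_lt (degree_C_mul_X_pow_le _ _) ?_
      exact_mod_cast ZMod.val_lt j
    by_cases hp0 : p = 0
    · rw [hp0]; simpa using Nat.pos_of_ne_zero (NeZero.ne n)
    · exact (natDegree_lt_iff_degree_lt hp0).mpr hle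
  have hinj : Function.Injective (fun k : Fin n => ζ ^ (k : ℕ)) := by
    intro a b hab
    exact Fin.ext (hζ.pow_inj a.2 b.2 hab)
  have hroots : ∀ k : Fin n, p.eval ((fun k : Fin n => ζ ^ (k : ℕ)) k) = 0 := by
    intro k
    have := h k
    simp only [hp, eval_finsetSum, eval_mul, eval_C, eval_pow, eval_X]
    rw [← this]
    refine Finset.sum_congr rfl fun j _ => ?_
    rw [← pow_mul, mul_comm (k : ℕ)]
  have hp0 : p = 0 := eq_zero_of_natDegree_lt_card_of_eval_eq_zero p hinj hroots hdeg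
  funext j₀
  have := congrArg (fun q : ℂ[X] => q.coeff j₀.val) hp0
  simp only [hp, finsetSum_coeff, coeff_C_mul_X_pow, coeff_zero] at this
  rw [Finset.sum_eq_single j₀] at this
  · simpa using this
  · intro b _ hb
    rw [if_neg]
    intro hval
    exact hb (ZMod.val_injective n hval.symm)
  · intro hj; exact absurd (Finset.mem_univ _) hj

/-- If all the coordinates of a rational combination of rows of the Fourier matrix are rational,
then the coefficients are invariant under multiplication of the index by units. -/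
theorem coeff_unit_invariant {n : ℕ} [NeZero n] {ζ : ℂ} (hζ : IsPrimitiveRoot ζ n)
    (c : ZMod n → ℚ)
    (h : ∀ k : Fin n, ∃ q : ℚ, ∑ j : ZMod n, (c j : ℂ) * ζ ^ (j.val * (k : ℕ)) = (q : ℂ))
    (u : (ZMod n)ˣ) (j : ZMod n) : c ((u : ZMod n) * j) = c j := by
  classical
  have hn : 0 < n := Nat.pos_of_ne_zero (NeZero.ne n)
  have key : ∀ k : Fin n, ∑ j : ZMod n,
      (((c ((u : ZMod n) * j) : ℚ) : ℂ) - (c j : ℂ)) * ζ ^ (((u : ZMod n) * j).val * (k : ℕ)) = 0 := by
    intro k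
    obtain ⟨q, hq⟩ := h k
    set P : ℚ[X] := ∑ j : ZMod n, C (c j) * X ^ (j.val * (k : ℕ)) with hP
    have hPe : ∀ z : ℂ, aeval z P = ∑ j : ZMod n, (c j : ℂ) * z ^ (j.val * (k : ℕ)) := by
      intro z
      simp [hP, map_sum]
    have h1 : aeval ζ P = (q : ℂ) := by rw [hPe, hq]
    have h2 := aeval_pow_coprime hn hζ P q h1 (ZMod.val_coe_unit_coprime u)
    rw [hPe] at h2
    have h3 : ∑ j : ZMod n, (c j : ℂ) * ζ ^ (((u : ZMod n) * j).val * (k : ℕ)) = (q : ℂ) := by
      rw [← h2]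
      refine Finset.sum_congr rfl fun j _ => ?_
      congr 1
      rw [ZMod.val_mul, pow_mul, pow_mod_of_primitive hζ, ← pow_mul, ← pow_mul, mul_assoc]
    have h4 : ∑ j : ZMod n, (c ((u : ZMod n) * j) : ℂ) * ζ ^ (((u : ZMod n) * j).val * (k : ℕ))
        = (q : ℂ) := by
      rw [← hq]
      exact Fintype.sum_equiv (Units.mulLeft u) _ _ (fun j => rfl)
    simp only [sub_mul, Finset.sum_sub_distrib, h3, h4, sub_self]
  have key2 : ∀ k : Fin n, ∑ j : ZMod n,
      (((c j : ℚ) : ℂ) - (c ((u⁻¹ : (ZMod n)ˣ) * j) : ℂ)) * ζ ^ (j.val * (k : ℕ)) = 0 := by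
    intro k
    rw [← key k]
    refine (Fintype.sum_equiv (Units.mulLeft u) _ _ (fun j => ?_)).symm
    simp
  have := dft_injective hζ _ key2
  have h5 := congrFun this ((u : ZMod n) * j)
  simp only [Pi.zero_apply, Units.inv_mul_cancel_left] at h5
  exact_mod_cast sub_eq_zero.mp h5

end Vale.Agent.Lib.P344
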