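import Vale.Agent.Lib.P344.Rows

/-!
# Lower bounds for circuits: assembling the pieces
-/

namespace Vale.Agent.Lib.P344

open Classical

variable {n : ℕ}

section
variable {s : ℕ} {g : ℕ → Gate} {v : ℕ → (Fin n → ℂ)}

theorem card_aliveSet_chain (h : IsTrace n s g (fun k : Fin n => (Pi.single k 1 : Fin n → ℂ)) v)
    (hrows : HasRows v) (m₀ B : ℕ) (hm₀ : 1 ≤ m₀)
    (hbase : ∀ S : Finset (Fin n), S.card = m₀ → B ≤ (aliveSet s g v S).card) (t : ℕ) :
    ∀ S : Finset (Fin n), S.card = m₀ + t → B + 2 * t ≤ (aliveSet s g v S).card := by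
  induction t with
  | zero => intro S hS; simpa using hbase S hS
  | succ t ih =>
    intro S hS
    obtain ⟨i, hi, hcard⟩ := exists_erase h hrows S (by omega)
    have := ih (S.erase i) (by rw [Finset.card_erase_of_mem hi]; omega)
    omega

/-- The improved bound on the number of additive gates. -/
theorem card_addSet_ge' (h : IsTrace n s g (fun k : Fin n => (Pi.single k 1 : Fin n → ℂ)) v)
    (hrows : HasRows v) (hn : 2 ≤ n) : 3 * n ≤ (addSet s g).card + n / n.minFac + 3 := by
  have hq2 : 2 ≤ n.minFac := (Nat.minFac_prime (by omega)).two_le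
  have hq1 : 1 ≤ n / n.minFac := Nat.div_pos (Nat.minFac_le (by omega)) (by omega)
  have hq3 : n / n.minFac ≤ n / 2 := Nat.div_le_div_left hq2 (by omega)
  have hbase : ∀ S : Finset (Fin n), S.card = n / n.minFac + 1 →
      (n / n.minFac + 1) + n - 2 ≤ (aliveSet s g v S).card := by
    intro S hS
    have h1 := card_fullSet_ge h hrows S (by omega)
      (fun r r' hrr => rows_not_propOn hn S (by omega) r r' hrr)
    have h2 := card_aliveSet_ge_of_full h S (Finset.card_pos.mp (by omega))
    omega
  have h3 := card_aliveSet_chain h hrows (n / n.minFac + 1) _ (by omega) hbase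
    (n - (n / n.minFac + 1)) Finset.univ (by simp; omega)
  have h4 : (aliveSet s g v Finset.univ).card ≤ (addSet s g).card :=
    Finset.card_le_card (Finset.filter_subset _ _)
  omega

end

theorem Circuit.ComputesDFT.hasRows {C : Circuit n} (h : C.ComputesDFT) : HasRows C.coeff :=
  fun r => ⟨C.out r, h.coeff_out r⟩

theorem Circuit.ComputesDFT.hasFrows [NeZero n] {C : Circuit n} (h : C.ComputesDFT) (j : ZMod n) :
    ∃ m, C.coeff m = frow n j :=
  ⟨C.out ⟨j.val, ZMod.val_lt j⟩, h.coeff_out _⟩

/-- Every circuit computing `F_n` has at least `2n - 2` additive gates and at least `n - d(n)`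
scalar gates. -/
theorem Circuit.ComputesDFT.size_ge (hn : 1 ≤ n) {C : Circuit n} (h : C.ComputesDFT) :
    3 * n ≤ C.size + 2 + (Nat.divisors n).card := by
  have : NeZero n := ⟨by omega⟩
  have h1 := card_smulSet_ge C.coeff_isTrace h.hasFrows
  have h2 := card_addSet_ge C.coeff_isTrace h.hasRows hn
  have h3 := card_smulSet_add_card_addSet C.size (fun k => C.gates.getD k (Gate.add 0 0))
  omega

/-- Every circuit computing `F_n` has at least `3n - n/q - 3` additive gates (`q` the least prime
factor of `n`) and at least `n - d(n)` scalar gates. -/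
theorem Circuit.ComputesDFT.size_ge' (hn : 2 ≤ n) {C : Circuit n} (h : C.ComputesDFT) :
    4 * n ≤ C.size + 3 + n / n.minFac + (Nat.divisors n).card := by
  have : NeZero n := ⟨by omega⟩
  have h1 := card_smulSet_ge C.coeff_isTrace h.hasFrows
  have h2 := card_addSet_ge' C.coeff_isTrace h.hasRows hn
  have h3 := card_smulSet_add_card_addSet C.size (fun k => C.gates.getD k (Gate.add 0 0))
  omega

end Vale.Agent.Lib.P344
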