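import Vale.Agent.Lib.P344.Main

/-!
# A potential argument for the number of scalar gates

We restrict the inputs to smaller and smaller rational subspaces `H`, killing the scalar gates one
after the other, and keep track of the space of rational relations between the scalar gates.
-/

namespace Vale.Agent.Lib.P344

open Classical Module

variable {n : ℕ}

/-- `z` is a rational number -/
def IsRat (z : ℂ) : Prop := ∃ q : ℚ, (q : ℂ) = z

theorem IsRat.add {z w : ℂ} (hz : IsRat z) (hw : IsRat w) : IsRat (z + w) := by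
  obtain ⟨a, rfl⟩ := hz
  obtain ⟨b, rfl⟩ := hw
  exact ⟨a + b, by push_cast; rfl⟩

theorem IsRat.sub {z w : ℂ} (hz : IsRat z) (hw : IsRat w) : IsRat (z - w) := by
  obtain ⟨a, rfl⟩ := hz
  obtain ⟨b, rfl⟩ := hw
  exact ⟨a - b, by push_cast; rfl⟩

theorem IsRat.mul {z w : ℂ} (hz : IsRat z) (hw : IsRat w) : IsRat (z * w) := by
  obtain ⟨a, rfl⟩ := hz
  obtain ⟨b, rfl⟩ := hw
  exact ⟨a * b, by push_cast; rfl⟩

theorem isRat_zero : IsRat 0 := ⟨0, by simp⟩

theorem isRat_rat (q : ℚ) : IsRat (q : ℂ) := ⟨q, rfl⟩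

theorem isRat_sum {ι : Type*} (t : Finset ι) (f : ι → ℂ) (h : ∀ i ∈ t, IsRat (f i)) :
    IsRat (∑ i ∈ t, f i) := by
  induction t using Finset.induction_on with
  | empty => simpa using isRat_zero
  | insert a t ha ih =>
    rw [Finset.sum_insert ha]
    exact (h a (Finset.mem_insert_self _ _)).add
      (ih fun i hi => h i (Finset.mem_insert_of_mem hi))

theorem IsRat.of_add_left {z w : ℂ} (hz : IsRat z) (h : IsRat (z + w)) : IsRat w := by
  have := h.sub hz
  simpa using this

/-- The value of the linear form with coefficients `x` at the rational point `h`. -/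
noncomputable def pair (x : Fin n → ℂ) (h : Fin n → ℚ) : ℂ := ∑ k, x k * (h k : ℂ)

theorem pair_add_left (x y : Fin n → ℂ) (h : Fin n → ℚ) : pair (x + y) h = pair x h + pair y h := by
  simp [pair, add_mul, Finset.sum_add_distrib]

theorem pair_smul_left (c : ℂ) (x : Fin n → ℂ) (h : Fin n → ℚ) : pair (c • x) h = c * pair x h := by
  simp [pair, Finset.mul_sum, mul_assoc]

theorem pair_zero_left (h : Fin n → ℚ) : pair (0 : Fin n → ℂ) h = 0 := by
  simp [pair]

theorem pair_single (k : Fin n) (h : Fin n → ℚ) : pair (Pi.single k 1) h = (h k : ℂ) := by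
  simp [pair, Pi.single_apply]

theorem pair_add_right (x : Fin n → ℂ) (h h' : Fin n → ℚ) :
    pair x (h + h') = pair x h + pair x h' := by
  simp [pair, mul_add, Finset.sum_add_distrib]

theorem pair_smul_right (x : Fin n → ℂ) (q : ℚ) (h : Fin n → ℚ) :
    pair x (q • h) = (q : ℂ) * pair x h := by
  simp only [pair, Finset.mul_sum, Pi.smul_apply, smul_eq_mul, Rat.cast_mul]
  refine Finset.sum_congr rfl fun k _ => ?_
  ring

/-- `pair x` as a `ℚ`-linear map -/
noncomputable def pairL (x : Fin n → ℂ) : (Fin n → ℚ) →ₗ[ℚ] ℂ where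
  toFun := pair x
  map_add' := pair_add_right x
  map_smul' := by
    intro q h
    rw [pair_smul_right, Rat.smul_def]
    rfl

/-- The rational relations, modulo rational numbers, between the forms `G i` restricted to `H`. -/
def relSub {ι : Type} [Fintype ι] (G : ι → Fin n → ℂ) (H : Submodule ℚ (Fin n → ℚ)) :
    Submodule ℚ (ι → ℚ) where
  carrier := {a | ∀ h ∈ H, IsRat (∑ i, (a i : ℂ) * pair (G i) h)}
  add_mem' := by
    intro a b ha hb h hh
    have := (ha h hh).add (hb h hh)
    rw [← Finset.sum_add_distrib] at this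
    convert this using 2 with i
    simp [add_mul]
  zero_mem' := by
    intro h _
    simpa using isRat_zero
  smul_mem' := by
    intro q a ha h hh
    have := (isRat_rat q).mul (ha h hh)
    rw [Finset.mul_sum] at this
    convert this using 2 with i
    simp [mul_assoc]

theorem mem_relSub {ι : Type} [Fintype ι] (G : ι → Fin n → ℂ) (H : Submodule ℚ (Fin n → ℚ))
    (a : ι → ℚ) : a ∈ relSub G H ↔ ∀ h ∈ H, IsRat (∑ i, (a i : ℂ) * pair (G i) h) := Iff.rfl

theorem relSub_mono {ι : Type} [Fintype ι] (G : ι → Fin n → ℂ) {H H' : Submodule ℚ (Fin n → ℚ)}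
    (hH : H' ≤ H) : relSub G H ≤ relSub G H' :=
  fun _ ha h hh => ha h (hH hh)

/-- A dimension inequality for preimages. -/
theorem finrank_comap_add_le {X Y : Type} [AddCommGroup X] [Module ℚ X] [FiniteDimensional ℚ X]
    [AddCommGroup Y] [Module ℚ Y] [FiniteDimensional ℚ Y] (φ : X →ₗ[ℚ] Y) (K K' : Submodule ℚ Y)
    (hK : K ≤ K') :
    finrank ℚ (K'.comap φ) + finrank ℚ K ≤ finrank ℚ (K.comap φ) + finrank ℚ K' := by
  -- rank-nullity for the restrictions of `φ`
  have key : ∀ L : Submodule ℚ Y, finrank ℚ (L.comap φ)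
      = finrank ℚ (LinearMap.range φ ⊓ L : Submodule ℚ Y) + finrank ℚ (LinearMap.ker φ) := by
    intro L
    have h1 := (φ.domRestrict (L.comap φ)).finrank_range_add_finrank_ker
    rw [LinearMap.range_domRestrict, Submodule.map_comap_eq, LinearMap.ker_domRestrict] at h1
    have h2 : LinearMap.ker φ ≤ L.comap φ := by
      intro x hx
      rw [Submodule.mem_comap, LinearMap.mem_ker.mp hx]
      exact L.zero_mem
    rw [← h1, (Submodule.comapSubtypeEquivOfLe h2).finrank_eq]
  rw [key K, key K']
  have h3 := Submodule.finrank_sup_add_finrank_inf_eq (LinearMap.range φ ⊓ K') K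
  have h4 : (LinearMap.range φ ⊓ K') ⊓ K = LinearMap.range φ ⊓ K := by
    rw [inf_assoc, inf_eq_right.mpr hK]
  have h5 : finrank ℚ ((LinearMap.range φ ⊓ K') ⊔ K : Submodule ℚ Y) ≤ finrank ℚ K' :=
    Submodule.finrank_mono (sup_le inf_le_right hK)
  rw [h4] at h3
  omega

end Vale.Agent.Lib.P344
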