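import Vale.Agent.Lib.P344.Potential

/-!
# The potential argument, continued: killing scalar gates
-/

namespace Vale.Agent.Lib.P344

open Classical Module

variable {n : ℕ}

/-- index type of the scalar gates -/
abbrev SIdx (s : ℕ) (g : ℕ → Gate) : Type := {k // k ∈ smulSet s g}

/-- values of the scalar gates -/
def sval (s : ℕ) (g : ℕ → Gate) (v : ℕ → (Fin n → ℂ)) : SIdx s g → (Fin n → ℂ) :=
  fun i => v (n + 1 + i.1)

theorem Gate.sgn_cases (g : Gate) : g.sgn = 1 ∨ g.sgn = -1 := by
  cases g <;> simp [Gate.sgn]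

theorem Gate.isRat_sgn (g : Gate) : IsRat g.sgn := by
  rcases g.sgn_cases with h | h
  · exact ⟨1, by simp [h]⟩
  · exact ⟨-1, by simp [h]⟩

variable {s : ℕ} {g : ℕ → Gate} {v : ℕ → (Fin n → ℂ)}

/-- Every node is a rational combination of the inputs and of the scalar gates. -/
theorem IsTrace.node_repr (h : IsTrace n s g (fun k : Fin n => (Pi.single k 1 : Fin n → ℂ)) v)
    (m : ℕ) : ∃ (b : Fin n → ℚ) (a : SIdx s g → ℚ), ∀ hh : Fin n → ℚ,
      pair (v m) hh = (∑ k, (b k : ℂ) * (hh k : ℂ)) + ∑ i, (a i : ℂ) * pair (sval s g v i) hh := by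
  refine h.induction_all (fun x => ∃ (b : Fin n → ℚ) (a : SIdx s g → ℚ), ∀ hh : Fin n → ℚ,
      pair x hh = (∑ k, (b k : ℂ) * (hh k : ℂ)) + ∑ i, (a i : ℂ) * pair (sval s g v i) hh)
      ?_ ?_ ?_ ?_ m
  · exact ⟨0, 0, fun hh => by simp [pair_zero_left]⟩
  · intro i
    refine ⟨Pi.single i 1, 0, fun hh => ?_⟩
    rw [pair_single, Finset.sum_eq_single i]
    · simp
    · intro b _ hb
      simp [hb]
    · intro hk'; exact absurd (Finset.mem_univ _) hk'
  · rintro k hk ⟨b1, a1, h1⟩ ⟨b2, a2, h2⟩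
    obtain ⟨q, hq⟩ := (g k).isRat_sgn
    refine ⟨b1 + q • b2, a1 + q • a2, fun hh => ?_⟩
    rw [h.gate_additive hk, pair_add_left, pair_smul_left, h1, h2, ← hq]
    simp only [Pi.add_apply, Pi.smul_apply, smul_eq_mul, Rat.cast_add, Rat.cast_mul, add_mul,
      Finset.sum_add_distrib, mul_add, Finset.mul_sum, mul_assoc]
    ring
  · rintro k hk _
    refine ⟨0, Pi.single ⟨k, hk⟩ 1, fun hh => ?_⟩
    rw [Finset.sum_eq_single (⟨k, hk⟩ : SIdx s g)]
    · simp [sval]
    · intro b _ hb
      simp [hb]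
    · intro hk'; exact absurd (Finset.mem_univ _) hk'

/-- The relations between the rows are the preimage of the relations between the scalar gates. -/
theorem exists_comap (h : IsTrace n s g (fun k : Fin n => (Pi.single k 1 : Fin n → ℂ)) v)
    (hrows : HasRows v) : ∃ φ : (Fin n → ℚ) →ₗ[ℚ] (SIdx s g → ℚ),
      ∀ H : Submodule ℚ (Fin n → ℚ), relSub (row n) H = (relSub (sval s g v) H).comap φ := by
  have hex : ∀ j : Fin n, ∃ (b : Fin n → ℚ) (a : SIdx s g → ℚ), ∀ hh : Fin n → ℚ,
      pair (row n j) hh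
        = (∑ k, (b k : ℂ) * (hh k : ℂ)) + ∑ i, (a i : ℂ) * pair (sval s g v i) hh := by
    intro j
    obtain ⟨m, hm⟩ := hrows j
    have := h.node_repr m
    rw [hm] at this
    exact this
  choose B A hBA using hex
  let φ : (Fin n → ℚ) →ₗ[ℚ] (SIdx s g → ℚ) :=
    { toFun := fun c i => ∑ j, c j * A j i
      map_add' := by
        intro c c'
        funext i
        simp [add_mul, Finset.sum_add_distrib]
      map_smul' := by
        intro q c
        funext i
        simp [Finset.mul_sum, mul_assoc] }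
  refine ⟨φ, fun H => ?_⟩
  ext c
  rw [Submodule.mem_comap, mem_relSub, mem_relSub]
  have key : ∀ hh : Fin n → ℚ, ∑ j, (c j : ℂ) * pair (row n j) hh
      = ((∑ j, c j * ∑ k, B j k * hh k : ℚ) : ℂ)
        + ∑ i, ((φ c i : ℚ) : ℂ) * pair (sval s g v i) hh := by
    intro hh
    have h1 : ∀ i, ((φ c i : ℚ) : ℂ) = ∑ j, (c j : ℂ) * (A j i : ℂ) := by
      intro i
      simp [φ]
    simp only [h1, hBA, mul_add, Finset.sum_add_distrib, Finset.sum_mul]
    congr 1
    · push_cast
      rfl
    · rw [Finset.sum_comm]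
      refine Finset.sum_congr rfl fun i _ => ?_
      rw [Finset.mul_sum]
      refine Finset.sum_congr rfl fun j _ => ?_
      ring
  constructor
  · intro hc hh hhH
    have := hc hh hhH
    rw [key] at this
    exact (isRat_rat _).of_add_left this
  · intro hc hh hhH
    rw [key]
    exact (isRat_rat _).add (hc hh hhH)

end Vale.Agent.Lib.P344
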