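import Vale.Agent.Lib.P344.Potential2

/-!
# The potential argument: the kill step and the abstract bound
-/

namespace Vale.Agent.Lib.P344

open Classical Module

variable {n : ℕ} {s : ℕ} {g : ℕ → Gate} {v : ℕ → (Fin n → ℂ)}

/-- Restricting a linear map with rational values to its kernel loses at most one dimension. -/
theorem finrank_le_inf_ker_add_one (H : Submodule ℚ (Fin n → ℚ)) (u : Fin n → ℂ)
    (hu : ∀ h ∈ H, IsRat (pair u h)) :
    finrank ℚ H ≤ finrank ℚ (H ⊓ LinearMap.ker (pairL u) : Submodule ℚ (Fin n → ℚ)) + 1 := by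
  have h1 := ((pairL u).domRestrict H).finrank_range_add_finrank_ker
  rw [LinearMap.ker_domRestrict] at h1
  have h2 : finrank ℚ (Submodule.comap H.subtype (LinearMap.ker (pairL u)))
      = finrank ℚ (H ⊓ LinearMap.ker (pairL u) : Submodule ℚ (Fin n → ℚ)) := by
    have e : Submodule.comap H.subtype (LinearMap.ker (pairL u))
        = Submodule.comap H.subtype (H ⊓ LinearMap.ker (pairL u)) := by
      ext x
      simp
    rw [e]
    exact (Submodule.comapSubtypeEquivOfLe (inf_le_left)).finrank_eq
  have h3 : finrank ℚ (LinearMap.range ((pairL u).domRestrict H)) ≤ 1 := by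
    have hle : LinearMap.range ((pairL u).domRestrict H) ≤ Submodule.span ℚ {(1 : ℂ)} := by
      rintro _ ⟨x, rfl⟩
      obtain ⟨q, hq⟩ := hu x.1 x.2
      rw [Submodule.mem_span_singleton]
      refine ⟨q, ?_⟩
      rw [Rat.smul_def, mul_one, hq]
      rfl
    refine (Submodule.finrank_mono hle).trans ?_
    exact (finrank_span_le_card ({(1 : ℂ)} : Set ℂ)).trans (by simp)
  omega

/-- The kill step. -/
theorem exists_kill (h : IsTrace n s g (fun k : Fin n => (Pi.single k 1 : Fin n → ℂ)) v)
    (H : Submodule ℚ (Fin n → ℚ)) (hK : relSub (sval s g v) H ≠ ⊤) :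
    ∃ H' : Submodule ℚ (Fin n → ℚ), H' ≤ H ∧ finrank ℚ H ≤ finrank ℚ H' + 1 ∧
      relSub (sval s g v) H < relSub (sval s g v) H' := by
  -- the scalar gates which are not rational on `H`
  set Bad : Finset ℕ := (smulSet s g).filter
    (fun k => ∃ hh ∈ H, ¬ IsRat (pair (v (n + 1 + k)) hh)) with hBad
  have hne : Bad.Nonempty := by
    by_contra hemp
    rw [Finset.not_nonempty_iff_eq_empty] at hemp
    apply hK
    rw [eq_top_iff]
    intro a _ hh hhH
    refine isRat_sum _ _ fun i _ => (isRat_rat _).mul ?_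
    by_contra hnr
    have : i.1 ∈ Bad := Finset.mem_filter.mpr ⟨i.2, hh, hhH, hnr⟩
    rw [hemp] at this
    simp at this
  obtain ⟨k₀, hk₀mem, hmin⟩ : ∃ k₀ ∈ Bad, ∀ k ∈ Bad, k₀ ≤ k :=
    ⟨Bad.min' hne, Finset.min'_mem _ _, fun k hk => Finset.min'_le _ _ hk⟩
  obtain ⟨hk₀s, h₀, hh₀, hnr₀⟩ := Finset.mem_filter.mp hk₀mem
  have hnodes : ∀ m, m < n + 1 + k₀ → ∀ hh ∈ H, IsRat (pair (v m) hh) := by
    refine h.induction k₀ (fun x => ∀ hh ∈ H, IsRat (pair x hh)) ?_ ?_ ?_ ?_
    · intro hh _
      rw [pair_zero_left]; exact isRat_zero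
    · intro i hh _
      rw [pair_single]; exact isRat_rat _
    · intro k hk _ hL hR hh hhH
      rw [h.gate_additive hk, pair_add_left, pair_smul_left]
      exact (hL hh hhH).add ((g k).isRat_sgn.mul (hR hh hhH))
    · intro k hk hkk _ hh hhH
      by_contra hnr
      have : k ∈ Bad := Finset.mem_filter.mpr ⟨hk, hh, hhH, hnr⟩
      have := hmin k this
      omega
  have hu : ∀ hh ∈ H, IsRat (pair (opL g v k₀) hh) := by
    unfold opL tv
    split_ifs with hi
    · exact hnodes _ hi
    · intro hh _
      rw [pair_zero_left]; exact isRat_zero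
  refine ⟨H ⊓ LinearMap.ker (pairL (opL g v k₀)), inf_le_left,
    finrank_le_inf_ker_add_one H _ hu, ?_⟩
  refine lt_of_le_of_ne (relSub_mono _ inf_le_left) ?_
  intro heq
  have hsum : ∀ hh : Fin n → ℚ,
      ∑ i, (((Pi.single (⟨k₀, hk₀s⟩ : SIdx s g) 1 : SIdx s g → ℚ) i : ℚ) : ℂ)
        * pair (sval s g v i) hh = pair (v (n + 1 + k₀)) hh := by
    intro hh
    rw [Finset.sum_eq_single (⟨k₀, hk₀s⟩ : SIdx s g)]
    · simp [sval]
    · intro b _ hb
      simp [hb]
    · intro hk'; exact absurd (Finset.mem_univ _) hk'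
  have hmem : (Pi.single (⟨k₀, hk₀s⟩ : SIdx s g) 1 : SIdx s g → ℚ)
      ∈ relSub (sval s g v) (H ⊓ LinearMap.ker (pairL (opL g v k₀))) := by
    intro hh hhH
    rw [hsum, h.gate_scalar hk₀s, pair_smul_left]
    have : pair (opL g v k₀) hh = 0 := LinearMap.mem_ker.mp hhH.2
    rw [this, mul_zero]
    exact isRat_zero
  rw [← heq] at hmem
  have := hmem h₀ hh₀
  rw [hsum] at this
  exact hnr₀ this

/-- the rational inputs on which all outputs are rational -/
def radSub (n : ℕ) : Submodule ℚ (Fin n → ℚ) where
  carrier := {h | ∀ j, IsRat (pair (row n j) h)}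
  add_mem' := by
    intro a b ha hb j
    rw [pair_add_right]
    exact (ha j).add (hb j)
  zero_mem' := by
    intro j
    simpa [pair] using isRat_zero
  smul_mem' := by
    intro q a ha j
    rw [pair_smul_right]
    exact (isRat_rat q).mul (ha j)

/-- The abstract bound.  `κ` is any monotone function on rational subspaces which strictly
decreases whenever the space of relations between the outputs grows. -/
theorem potential_bound (h : IsTrace n s g (fun k : Fin n => (Pi.single k 1 : Fin n → ℂ)) v)
    (hrows : HasRows v) (κ : Submodule ℚ (Fin n → ℚ) → ℕ)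
    (hmono : ∀ H H' : Submodule ℚ (Fin n → ℚ), H' ≤ H → κ H' ≤ κ H)
    (hstrict : ∀ H H' : Submodule ℚ (Fin n → ℚ), H' ≤ H → κ H' = κ H →
      relSub (row n) H' ≤ relSub (row n) H) (H : Submodule ℚ (Fin n → ℚ)) :
    finrank ℚ (relSub (sval s g v) H) + finrank ℚ H + n
      ≤ (smulSet s g).card + κ H + finrank ℚ (relSub (row n) H)
        + finrank ℚ (H ⊓ radSub n : Submodule ℚ (Fin n → ℚ)) := by
  obtain ⟨φ, hφ⟩ := exists_comap h hrows
  have hcard : finrank ℚ (SIdx s g → ℚ) = (smulSet s g).card := by
    rw [Module.finrank_fintype_fun_eq_card, Fintype.card_coe]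
  induction hd : (smulSet s g).card - finrank ℚ (relSub (sval s g v) H) using
    Nat.strong_induction_on generalizing H with
  | _ d ih =>
    by_cases hK : relSub (sval s g v) H = ⊤
    · have h1 : finrank ℚ (relSub (sval s g v) H) = (smulSet s g).card := by
        rw [hK, finrank_top, hcard]
      have h2 : relSub (row n) H = ⊤ := by
        rw [hφ, hK, Submodule.comap_top]
      have h3 : finrank ℚ (relSub (row n) H) = n := by
        rw [h2, finrank_top, Module.finrank_fintype_fun_eq_card, Fintype.card_fin]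
      have h4 : H ⊓ radSub n = H := by
        rw [inf_eq_left]
        intro hh hhH j
        have hj : (Pi.single j 1 : Fin n → ℚ) ∈ relSub (row n) H := by
          rw [h2]; exact Submodule.mem_top
        have := hj hh hhH
        rw [Finset.sum_eq_single j] at this
        · simpa using this
        · intro b _ hb
          simp [hb]
        · intro hk'; exact absurd (Finset.mem_univ _) hk'
      rw [h4]
      omega
    · obtain ⟨H', hle, hfin, hlt⟩ := exists_kill h H hK
      have hKlt := Submodule.finrank_lt_finrank_of_lt hlt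
      have hKle : finrank ℚ (relSub (sval s g v) H') ≤ (smulSet s g).card := by
        rw [← hcard]; exact Submodule.finrank_le _
      have IH := ih _ (by omega) H' rfl
      have hcomap := finrank_comap_add_le φ _ _ hlt.le
      rw [← hφ, ← hφ] at hcomap
      have hR : finrank ℚ (H' ⊓ radSub n : Submodule ℚ (Fin n → ℚ))
          ≤ finrank ℚ (H ⊓ radSub n : Submodule ℚ (Fin n → ℚ)) :=
        Submodule.finrank_mono (inf_le_inf_right _ hle)
      have hκ := hmono H H' hle
      by_cases hκe : κ H' = κ H
      · have hA : finrank ℚ (relSub (row n) H') ≤ finrank ℚ (relSub (row n) H) :=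
          Submodule.finrank_mono (hstrict H H' hle hκe)
        omega
      · omega

end Vale.Agent.Lib.P344
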