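import Vale.Agent.Lib.P344.RadBound

/-!
# The prime case: a primitive root and the splitting of sums
-/

namespace Vale.Agent.Lib.P344

open Classical Module Polynomial

variable {p : ℕ} [Fact p.Prime]

/-- `γ` generates the group of units. -/
def IsGen (γ : (ZMod p)ˣ) : Prop := ∀ u : (ZMod p)ˣ, u ∈ Subgroup.zpowers γ

theorem exists_isGen (p : ℕ) [Fact p.Prime] : ∃ γ : (ZMod p)ˣ, IsGen γ :=
  IsCyclic.exists_generator

theorem IsGen.orderOf_eq {γ : (ZMod p)ˣ} (hγ : IsGen γ) : orderOf γ = p - 1 := by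
  rw [orderOf_eq_card_of_forall_mem_zpowers hγ, Nat.card_eq_fintype_card, ZMod.card_units]

/-- the powers of the generator, as elements of `ZMod p` -/
def gpow (γ : (ZMod p)ˣ) (x : ℕ) : ZMod p := ((γ ^ x : (ZMod p)ˣ) : ZMod p)

theorem gpow_add (γ : (ZMod p)ˣ) (x y : ℕ) : gpow γ (x + y) = gpow γ x * gpow γ y := by
  simp [gpow, pow_add]

theorem gpow_ne_zero (γ : (ZMod p)ˣ) (x : ℕ) : gpow γ x ≠ 0 := Units.ne_zero _

theorem IsGen.gpow_period {γ : (ZMod p)ˣ} (hγ : IsGen γ) (x : ℕ) :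
    gpow γ (x + (p - 1)) = gpow γ x := by
  rw [gpow_add]
  have : gpow γ (p - 1) = 1 := by
    unfold gpow
    rw [← hγ.orderOf_eq, pow_orderOf_eq_one]
    rfl
  rw [this, mul_one]

theorem IsGen.injOn {γ : (ZMod p)ˣ} (hγ : IsGen γ) :
    Set.InjOn (gpow γ) (Finset.range (p - 1) : Set ℕ) := by
  intro x hx y hy hxy
  have h1 : γ ^ x = γ ^ y := Units.ext hxy
  rw [Finset.coe_range, Set.mem_Iio, ← hγ.orderOf_eq] at hx hy
  exact pow_injOn_Iio_orderOf hx hy h1

theorem IsGen.image_eq {γ : (ZMod p)ˣ} (hγ : IsGen γ) :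
    (Finset.range (p - 1)).image (gpow γ) = Finset.univ.erase 0 := by
  ext j
  simp only [Finset.mem_image, Finset.mem_range, Finset.mem_erase, Finset.mem_univ, and_true]
  constructor
  · rintro ⟨x, _, rfl⟩
    exact gpow_ne_zero γ x
  · intro hj
    have h1 := IsCyclic.image_range_orderOf hγ
    have h2 : Units.mk0 j hj ∈ Finset.image (fun i => γ ^ i) (Finset.range (orderOf γ)) := by
      rw [h1]; exact Finset.mem_univ _
    obtain ⟨x, hx, hxj⟩ := Finset.mem_image.mp h2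
    rw [Finset.mem_range, hγ.orderOf_eq] at hx
    refine ⟨x, hx, ?_⟩
    unfold gpow
    rw [hxj]
    rfl

/-- Splitting a sum over `ZMod p`. -/
theorem IsGen.sum_zmod {γ : (ZMod p)ˣ} (hγ : IsGen γ) (f : ZMod p → ℂ) :
    ∑ j, f j = f 0 + ∑ x ∈ Finset.range (p - 1), f (gpow γ x) := by
  rw [← Finset.add_sum_erase Finset.univ f (Finset.mem_univ 0), ← hγ.image_eq,
    Finset.sum_image hγ.injOn]

/-- the index in `Fin p` of a power of the generator -/
def gidx (γ : (ZMod p)ˣ) (x : ℕ) : Fin p := zmodEquivFin p (gpow γ x)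

/-- Splitting a sum over `Fin p`. -/
theorem IsGen.sum_fin {γ : (ZMod p)ˣ} (hγ : IsGen γ) (f : Fin p → ℂ) :
    ∑ j, f j = f (zmodEquivFin p 0) + ∑ x ∈ Finset.range (p - 1), f (gidx γ x) := by
  rw [← Fintype.sum_equiv (zmodEquivFin p) (fun j => f (zmodEquivFin p j)) f (fun _ => rfl)]
  exact hγ.sum_zmod _

/-- `ζ ^ (γ ^ t)` -/
noncomputable def zt (γ : (ZMod p)ˣ) (t : ℕ) : ℂ := zeta p ^ (gpow γ t).val

theorem zt_add (γ : (ZMod p)ˣ) (x y : ℕ) :
    zt γ (x + y) = zeta p ^ ((gpow γ x).val * (gpow γ y).val) := by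
  unfold zt
  rw [gpow_add, ZMod.val_mul, pow_mod_of_primitive (zeta_isPrimitiveRoot (NeZero.ne p))]

theorem IsGen.zt_period {γ : (ZMod p)ˣ} (hγ : IsGen γ) (x : ℕ) : zt γ (x + (p - 1)) = zt γ x := by
  unfold zt
  rw [hγ.gpow_period]

/-- the sum of all nontrivial `p`-th roots of unity -/
theorem IsGen.sum_zt {γ : (ZMod p)ˣ} (hγ : IsGen γ) : ∑ x ∈ Finset.range (p - 1), zt γ x = -1 := by
  have hp : 1 < p := (Fact.out : p.Prime).one_lt
  have h1 := (zeta_isPrimitiveRoot (NeZero.ne p)).geom_sum_eq_zero hp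
  have h2 : ∑ j : ZMod p, zeta p ^ j.val = ∑ i ∈ Finset.range p, zeta p ^ i := by
    rw [← Fin.sum_univ_eq_sum_range (fun i => zeta p ^ i) p]
    exact Fintype.sum_equiv (zmodEquivFin p) _ _ (fun _ => rfl)
  have h3 := hγ.sum_zmod (fun j => zeta p ^ j.val)
  rw [h2, h1] at h3
  simp only [ZMod.val_zero, pow_zero] at h3
  unfold zt
  linear_combination -h3

theorem IsGen.sum_zt_shift {γ : (ZMod p)ˣ} (hγ : IsGen γ) (t : ℕ) :
    ∑ x ∈ Finset.range (p - 1), zt γ (x + t) = -1 := by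
  induction t with
  | zero => simpa using hγ.sum_zt
  | succ t ih =>
    have hp : 1 < p := (Fact.out : p.Prime).one_lt
    obtain ⟨m, hm⟩ : ∃ m, p - 1 = m + 1 := ⟨p - 2, by omega⟩
    rw [← ih, hm, Finset.sum_range_succ, Finset.sum_range_succ']
    congr 1
    · refine Finset.sum_congr rfl fun x _ => ?_
      congr 1
      omega
    · have := hγ.zt_period t
      rw [hm] at this
      rw [zero_add, ← this]
      congr 1
      omega

end Vale.Agent.Lib.P344
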