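import Vale.Agent.Lib.P344.PrimeA

/-!
# The prime case: rationality of `∑ r_t ζ^(γ^t)` and divisibility by the geometric sum
-/

namespace Vale.Agent.Lib.P344

open Classical Module Polynomial

variable {p : ℕ} [Fact p.Prime]

/-- The `ℚ`-linear map `X ^ t ↦ ζ ^ (γ ^ t)`. -/
noncomputable def Emap (γ : (ZMod p)ˣ) : ℚ[X] →ₗ[ℚ] ℂ :=
  Polynomial.lsum (fun t => LinearMap.toSpanSingleton ℚ ℂ (zt γ t))

theorem Emap_monomial (γ : (ZMod p)ˣ) (t : ℕ) (q : ℚ) :
    Emap γ (monomial t q) = (q : ℂ) * zt γ t := by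
  simp [Emap, lsum_apply, sum_monomial_index, LinearMap.toSpanSingleton_apply, Rat.smul_def]

/-- the geometric sum `1 + X + ... + X^(p-2)` -/
noncomputable def geomN (p : ℕ) : ℚ[X] := ∑ i ∈ Finset.range (p - 1), X ^ i

theorem IsGen.Emap_X_pow_mul {γ : (ZMod p)ˣ} (hγ : IsGen γ) (P : ℚ[X]) :
    Emap γ (X ^ (p - 1) * P) = Emap γ P := by
  induction P using Polynomial.induction_on' with
  | add P Q hP hQ => rw [mul_add, map_add, map_add, hP, hQ]
  | monomial t q =>
    rw [X_pow_mul_monomial, Emap_monomial, Emap_monomial, hγ.zt_period]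

theorem IsGen.isRat_Emap_geom_mul {γ : (ZMod p)ˣ} (hγ : IsGen γ) (Q : ℚ[X]) :
    IsRat (Emap γ (geomN p * Q)) := by
  induction Q using Polynomial.induction_on' with
  | add P Q hP hQ =>
    rw [mul_add, map_add]
    exact hP.add hQ
  | monomial t q =>
    have h1 : geomN p * monomial t q = ∑ x ∈ Finset.range (p - 1), monomial (t + x) q := by
      rw [geomN, Finset.sum_mul]
      refine Finset.sum_congr rfl fun x _ => ?_
      rw [X_pow_mul_monomial]
    rw [h1, map_sum]
    have h2 : ∑ x ∈ Finset.range (p - 1), Emap γ (monomial (t + x) q)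
        = (q : ℂ) * ∑ x ∈ Finset.range (p - 1), zt γ (x + t) := by
      rw [Finset.mul_sum]
      refine Finset.sum_congr rfl fun x _ => ?_
      rw [Emap_monomial, add_comm]
    rw [h2, hγ.sum_zt_shift]
    exact ⟨-q, by push_cast; ring⟩

theorem geomN_dvd (p : ℕ) : geomN p ∣ X ^ (p - 1) - 1 :=
  ⟨X - 1, (geom_sum_mul X (p - 1)).symm⟩

/-- If `∑_{t < p-1} r_t ζ^(γ^t)` is rational, all `r_t` are equal. -/
theorem IsGen.coeff_const {γ : (ZMod p)ˣ} (hγ : IsGen γ) (r : ℕ → ℚ)
    (h : IsRat (∑ t ∈ Finset.range (p - 1), (r t : ℂ) * zt γ t)) :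
    ∀ t < p - 1, r t = r 0 := by
  have hp : 1 < p := (Fact.out : p.Prime).one_lt
  have hζ := zeta_isPrimitiveRoot (NeZero.ne p)
  set c : ZMod p → ℚ := fun j => ∑ t ∈ Finset.range (p - 1), if gpow γ t = j then r t else 0 with hc
  have hcg : ∀ t < p - 1, c (gpow γ t) = r t := by
    intro t ht
    simp only [hc]
    rw [Finset.sum_eq_single t]
    · simp
    · intro b hb hbt
      rw [if_neg]
      intro hgb
      exact hbt (hγ.injOn (Finset.mem_coe.mpr hb) (Finset.mem_coe.mpr (Finset.mem_range.mpr ht)) hgb)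
    · intro hnot
      exact absurd (Finset.mem_range.mpr ht) hnot
  have hsum : ∀ k : ℕ, ∑ j : ZMod p, (c j : ℂ) * zeta p ^ (j.val * k)
      = ∑ t ∈ Finset.range (p - 1), (r t : ℂ) * zeta p ^ ((gpow γ t).val * k) := by
    intro k
    simp only [hc, Rat.cast_sum, Finset.sum_mul]
    rw [Finset.sum_comm]
    refine Finset.sum_congr rfl fun t _ => ?_
    rw [Finset.sum_eq_single (gpow γ t)]
    · simp
    · intro b _ hb
      rw [if_neg (Ne.symm hb)]
      simp
    · intro hnot; exact absurd (Finset.mem_univ _) hnot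
  obtain ⟨q, hq⟩ := h
  set P₁ : ℚ[X] := ∑ j : ZMod p, C (c j) * X ^ j.val with hP₁
  have hP₁e : ∀ z : ℂ, aeval z P₁ = ∑ j : ZMod p, (c j : ℂ) * z ^ j.val := by
    intro z
    simp [hP₁, map_sum]
  have h1 : aeval (zeta p) P₁ = (q : ℂ) := by
    rw [hP₁e, hq]
    have := hsum 1
    simp only [mul_one] at this
    rw [this]
    rfl
  have hinv := coeff_unit_invariant hζ c (by
    intro k
    by_cases hk : (k : ℕ) = 0
    · refine ⟨∑ j, c j, ?_⟩
      simp [hk]
    · have hcop : Nat.Coprime (k : ℕ) p := by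
        rw [Nat.coprime_comm, Nat.Prime.coprime_iff_not_dvd Fact.out]
        intro hdvd
        have := Nat.le_of_dvd (Nat.pos_of_ne_zero hk) hdvd
        have := k.2
        omega
      refine ⟨q, ?_⟩
      have h2 := aeval_pow_coprime (by omega) hζ P₁ q h1 hcop
      rw [hP₁e] at h2
      rw [← h2]
      refine Finset.sum_congr rfl fun j _ => ?_
      rw [← pow_mul, mul_comm (k : ℕ)])
  intro t ht
  rw [← hcg t ht, ← hcg 0 (by omega)]
  have := hinv (γ ^ t) (gpow γ 0)
  rw [← this]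
  congr 1
  simp [gpow]

theorem IsGen.dvd_of_isRat_Emap {γ : (ZMod p)ˣ} (hγ : IsGen γ) (P : ℚ[X])
    (h : IsRat (Emap γ P)) : geomN p ∣ P := by
  have hp : 1 < p := (Fact.out : p.Prime).one_lt
  have hm : p - 1 ≠ 0 := by omega
  have hmonic : (X ^ (p - 1) - C (1 : ℚ)).Monic := monic_X_pow_sub_C 1 hm
  have hdiv := modByMonic_add_div P (X ^ (p - 1) - C (1 : ℚ))
  set R := P %ₘ (X ^ (p - 1) - C (1 : ℚ)) with hR
  set Q := P /ₘ (X ^ (p - 1) - C (1 : ℚ)) with hQ
  have hE : Emap γ P = Emap γ R := by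
    rw [← hdiv, map_add, sub_mul, map_sub, hγ.Emap_X_pow_mul]
    simp
  have hdeg : R.natDegree < p - 1 := by
    have h1 := natDegree_modByMonic_lt P hmonic (by
      intro h1
      have := congrArg natDegree h1
      rw [natDegree_X_pow_sub_C] at this
      simp at this
      omega)
    rwa [natDegree_X_pow_sub_C] at h1
  have hRsum := as_sum_range' R (p - 1) hdeg
  have hER : Emap γ R = ∑ t ∈ Finset.range (p - 1), ((R.coeff t : ℚ) : ℂ) * zt γ t := by
    conv_lhs => rw [hRsum]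
    rw [map_sum]
    exact Finset.sum_congr rfl fun t _ => Emap_monomial γ t _
  rw [hE, hER] at h
  have hconst := hγ.coeff_const (fun t => R.coeff t) h
  have hRN : R = C (R.coeff 0) * geomN p := by
    conv_lhs => rw [hRsum]
    rw [geomN, Finset.mul_sum]
    refine Finset.sum_congr rfl fun t ht => ?_
    rw [hconst t (Finset.mem_range.mp ht), C_mul_X_pow_eq_monomial]
  rw [← hdiv]
  refine dvd_add ?_ ?_
  · rw [hRN]; exact Dvd.intro_left _ rfl
  · refine Dvd.dvd.mul_right ?_ _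
    simpa using geomN_dvd p

theorem IsGen.isRat_Emap_iff {γ : (ZMod p)ˣ} (hγ : IsGen γ) (P : ℚ[X]) :
    IsRat (Emap γ P) ↔ geomN p ∣ P := by
  constructor
  · exact hγ.dvd_of_isRat_Emap P
  · rintro ⟨Q, rfl⟩
    exact hγ.isRat_Emap_geom_mul Q

end Vale.Agent.Lib.P344
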