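import Vale.Agent.Lib.P344.PrimeB

/-!
# The prime case: the relations between the outputs in terms of polynomials, and the final bound
-/

namespace Vale.Agent.Lib.P344

open Classical Module Polynomial

variable {p : ℕ} [Fact p.Prime]

/-- the polynomial `∑_x h(γ^x) X^x` -/
noncomputable def polyOf (γ : (ZMod p)ˣ) (h : Fin p → ℚ) : ℚ[X] :=
  ∑ x ∈ Finset.range (p - 1), monomial x (h (gidx γ x))

theorem Emap_polyOf_mul (γ : (ZMod p)ˣ) (c h : Fin p → ℚ) :
    Emap γ (polyOf γ c * polyOf γ h) = ∑ x ∈ Finset.range (p - 1), ∑ y ∈ Finset.range (p - 1),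
      (c (gidx γ x) : ℂ) * ((h (gidx γ y) : ℂ) * zt γ (x + y)) := by
  rw [polyOf, polyOf, Finset.sum_mul_sum, map_sum]
  refine Finset.sum_congr rfl fun x _ => ?_
  rw [map_sum]
  refine Finset.sum_congr rfl fun y _ => ?_
  rw [monomial_mul_monomial, Emap_monomial]
  push_cast
  ring

theorem IsGen.pairing_eq {γ : (ZMod p)ˣ} (hγ : IsGen γ) (c h : Fin p → ℚ) :
    ∑ j, (c j : ℂ) * pair (row p j) h
      = ((c (zmodEquivFin p 0) * ∑ k, h k
          + (∑ x ∈ Finset.range (p - 1), c (gidx γ x)) * h (zmodEquivFin p 0) : ℚ) : ℂ)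
        + Emap γ (polyOf γ c * polyOf γ h) := by
  rw [hγ.sum_fin, Emap_polyOf_mul]
  have h0 : pair (row p (zmodEquivFin p 0)) h = ((∑ k, h k : ℚ) : ℂ) := by
    simp [pair, row]
  have hx : ∀ x, pair (row p (gidx γ x)) h = (h (zmodEquivFin p 0) : ℂ)
      + ∑ y ∈ Finset.range (p - 1), (h (gidx γ y) : ℂ) * zt γ (x + y) := by
    intro x
    rw [pair, hγ.sum_fin]
    congr 1
    · simp [row]
    · refine Finset.sum_congr rfl fun y _ => ?_
      rw [zt_add, mul_comm]
      rfl
  rw [h0]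
  simp only [hx, mul_add, Finset.sum_add_distrib, Finset.mul_sum]
  push_cast
  simp only [Finset.sum_mul, Finset.mul_sum]
  ring

theorem IsGen.isRat_pairing_iff {γ : (ZMod p)ˣ} (hγ : IsGen γ) (c h : Fin p → ℚ) :
    IsRat (∑ j, (c j : ℂ) * pair (row p j) h) ↔ geomN p ∣ polyOf γ c * polyOf γ h := by
  rw [hγ.pairing_eq, ← hγ.isRat_Emap_iff]
  constructor
  · intro h1
    exact (isRat_rat _).of_add_left h1
  · intro h1
    exact (isRat_rat _).add h1

/-- the number of cyclotomic factors of `1 + X + ... + X^(p-2)` not dividing all of `H` -/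
noncomputable def kappa (γ : (ZMod p)ˣ) (H : Submodule ℚ (Fin p → ℚ)) : ℕ :=
  (((p - 1).divisors.erase 1).filter (fun e => ∃ h ∈ H, ¬ cyclotomic e ℚ ∣ polyOf γ h)).card

theorem kappa_mono (γ : (ZMod p)ˣ) (H H' : Submodule ℚ (Fin p → ℚ)) (hle : H' ≤ H) :
    kappa γ H' ≤ kappa γ H := by
  refine Finset.card_le_card ?_
  intro e he
  rw [Finset.mem_filter] at he ⊢
  obtain ⟨he1, h, hh, hnd⟩ := he
  exact ⟨he1, h, hle hh, hnd⟩

theorem IsGen.kappa_strict {γ : (ZMod p)ˣ} (hγ : IsGen γ) (H H' : Submodule ℚ (Fin p → ℚ))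
    (hle : H' ≤ H) (heq : kappa γ H' = kappa γ H) : relSub (row p) H' ≤ relSub (row p) H := by
  have hp : 1 < p := (Fact.out : p.Prime).one_lt
  have hsub : ((p - 1).divisors.erase 1).filter (fun e => ∃ h ∈ H', ¬ cyclotomic e ℚ ∣ polyOf γ h)
      ⊆ ((p - 1).divisors.erase 1).filter (fun e => ∃ h ∈ H, ¬ cyclotomic e ℚ ∣ polyOf γ h) := by
    intro e he
    rw [Finset.mem_filter] at he ⊢
    obtain ⟨he1, h, hh, hnd⟩ := he
    exact ⟨he1, h, hle hh, hnd⟩
  have hsets := Finset.eq_of_subset_of_card_le hsub (le_of_eq heq.symm)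
  intro c hc h hh
  rw [hγ.isRat_pairing_iff]
  rw [geomN, ← prod_cyclotomic_eq_geom_sum (by omega) ℚ]
  refine Finset.prod_dvd_of_coprime ?_ ?_
  · intro a _ b _ hab
    exact cyclotomic.isCoprime_rat hab
  · intro e he
    by_cases hd : cyclotomic e ℚ ∣ polyOf γ h
    · exact Dvd.dvd.mul_left hd _
    · have hmem : e ∈ ((p - 1).divisors.erase 1).filter
          (fun e => ∃ h ∈ H, ¬ cyclotomic e ℚ ∣ polyOf γ h) :=
        Finset.mem_filter.mpr ⟨he, h, hh, hd⟩
      rw [← hsets, Finset.mem_filter] at hmem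
      obtain ⟨_, h', hh', hnd'⟩ := hmem
      have h1 := (hγ.isRat_pairing_iff c h').mp (hc h' hh')
      have h2 : cyclotomic e ℚ ∣ geomN p := by
        rw [geomN, ← prod_cyclotomic_eq_geom_sum (by omega) ℚ]
        exact Finset.dvd_prod_of_mem _ he
      have hepos : 0 < e := Nat.pos_of_mem_divisors (Finset.mem_of_mem_erase he)
      have hprime : Prime (cyclotomic e ℚ) := (cyclotomic.irreducible_rat hepos).prime
      rcases hprime.dvd_or_dvd (h2.trans h1) with h3 | h3
      · exact Dvd.dvd.mul_right h3 _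
      · exact absurd h3 hnd'

theorem kappa_top_le (γ : (ZMod p)ˣ) : kappa γ ⊤ + 1 ≤ ((p - 1).divisors).card := by
  have hp : 1 < p := (Fact.out : p.Prime).one_lt
  have h1 : kappa γ ⊤ ≤ ((p - 1).divisors.erase 1).card := Finset.card_filter_le _ _
  rw [Finset.card_erase_of_mem (Nat.one_mem_divisors.mpr (by omega))] at h1
  have h2 : 0 < ((p - 1).divisors).card :=
    Finset.card_pos.mpr ⟨1, Nat.one_mem_divisors.mpr (by omega)⟩
  omega

/-- The number of scalar gates for prime `p`. -/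
theorem card_smulSet_ge_prime {s : ℕ} {g : ℕ → Gate} {v : ℕ → (Fin p → ℂ)}
    (h : IsTrace p s g (fun k : Fin p => (Pi.single k 1 : Fin p → ℂ)) v)
    (hrows : HasRows v) : 2 * p ≤ (smulSet s g).card + 3 + ((p - 1).divisors).card := by
  obtain ⟨γ, hγ⟩ := exists_isGen p
  have h1 := potential_bound_top h hrows (kappa γ) (kappa_mono γ) hγ.kappa_strict
  have h2 := kappa_top_le γ
  have h3 : (Nat.divisors p).card = 2 := by
    rw [Nat.Prime.divisors Fact.out]
    exact Finset.card_pair (Fact.out : p.Prime).one_lt.ne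
  omega

/-- Every circuit computing `F_p`, `p` prime, has at least `5p - 7 - d(p-1)` gates. -/
theorem Circuit.ComputesDFT.size_ge_prime {C : Circuit p} (h : C.ComputesDFT) :
    5 * p ≤ C.size + 7 + ((p - 1).divisors).card := by
  have hp : 2 ≤ p := (Fact.out : p.Prime).two_le
  have h1 := card_smulSet_ge_prime C.coeff_isTrace h.hasRows
  have h2 := card_addSet_ge' C.coeff_isTrace h.hasRows hp
  have h3 := card_smulSet_add_card_addSet C.size (fun k => C.gates.getD k (Gate.add 0 0))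
  have h4 : p / p.minFac = 1 := by
    rw [(Fact.out : p.Prime).minFac_eq]
    exact Nat.div_self (by omega)
  omega

end Vale.Agent.Lib.P344
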