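import Vale.Agent.Lib.P344.Potential3

/-!
# The radical of the pairing has dimension at most `d(n)`
-/

namespace Vale.Agent.Lib.P344

open Classical Module

variable {n : ℕ}

/-- the bijection between `ZMod n` and `Fin n` -/
def zmodEquivFin (n : ℕ) [NeZero n] : ZMod n ≃ Fin n where
  toFun j := ⟨j.val, ZMod.val_lt j⟩
  invFun i := ((i : ℕ) : ZMod n)
  left_inv j := ZMod.natCast_zmod_val j
  right_inv i := Fin.ext (ZMod.val_natCast_of_lt i.2)

@[simp] theorem zmodEquivFin_val (n : ℕ) [NeZero n] (j : ZMod n) :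
    ((zmodEquivFin n j : Fin n) : ℕ) = j.val := rfl

/-- unit invariance for coefficient vectors indexed by `Fin n` -/
theorem fin_unit_invariant [NeZero n] (c : Fin n → ℚ)
    (h : ∀ k : Fin n, IsRat (∑ j : Fin n, (c j : ℂ) * zeta n ^ ((j : ℕ) * (k : ℕ))))
    (u : (ZMod n)ˣ) (j : ZMod n) :
    c (zmodEquivFin n ((u : ZMod n) * j)) = c (zmodEquivFin n j) := by
  refine coeff_unit_invariant (zeta_isPrimitiveRoot (NeZero.ne n))
    (fun j => c (zmodEquivFin n j)) ?_ u j
  intro k
  obtain ⟨q, hq⟩ := h k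
  refine ⟨q, ?_⟩
  rw [hq]
  exact Fintype.sum_equiv (zmodEquivFin n) _ _ (fun j => rfl)

theorem finrank_le_divisors [NeZero n] (U : Submodule ℚ (Fin n → ℚ))
    (hU : ∀ c ∈ U, ∀ k : Fin n, IsRat (∑ j : Fin n, (c j : ℂ) * zeta n ^ ((j : ℕ) * (k : ℕ)))) :
    finrank ℚ U ≤ (Nat.divisors n).card := by
  let Λ : U →ₗ[ℚ] ({d // d ∈ reps n} → ℚ) :=
    { toFun := fun c d => c.1 (zmodEquivFin n d.1)
      map_add' := by intro a b; rfl
      map_smul' := by intro q a; rfl }
  have hinj : Function.Injective Λ := by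
    rw [← LinearMap.ker_eq_bot, LinearMap.ker_eq_bot']
    intro c hc
    apply Subtype.ext
    funext i
    obtain ⟨j, rfl⟩ := (zmodEquivFin n).surjective i
    obtain ⟨d, hd, u, hu, rfl⟩ := ZMod.eq_unit_mul_divisor j
    obtain ⟨u, rfl⟩ := hu
    rw [fin_unit_invariant c.1 (hU c.1 c.2)]
    have hmem : (d : ZMod n) ∈ reps n :=
      Finset.mem_image.mpr ⟨d, Nat.mem_divisors.mpr ⟨hd, NeZero.ne n⟩, rfl⟩
    exact congrFun hc ⟨_, hmem⟩
  have h1 := LinearMap.finrank_le_finrank_of_injective hinj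
  rw [Module.finrank_fintype_fun_eq_card, Fintype.card_coe] at h1
  exact h1.trans (card_reps_le n)

theorem finrank_radSub_le [NeZero n] : finrank ℚ (radSub n) ≤ (Nat.divisors n).card := by
  refine finrank_le_divisors _ fun c hc k => ?_
  have := hc k
  simp only [pair, row] at this
  convert this using 2 with j
  rw [mul_comm, mul_comm (j : ℕ)]

theorem finrank_relSub_top_le [NeZero n] :
    finrank ℚ (relSub (row n) ⊤) ≤ (Nat.divisors n).card := by
  refine finrank_le_divisors _ fun c hc k => ?_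
  have := hc (Pi.single k 1) Submodule.mem_top
  convert this using 2 with j
  simp only [pair, row]
  rw [Finset.sum_eq_single k]
  · simp
  · intro b _ hb
    simp [hb]
  · intro hk'; exact absurd (Finset.mem_univ _) hk'

/-- The abstract bound at `H = ⊤`. -/
theorem potential_bound_top [NeZero n] {s : ℕ} {g : ℕ → Gate} {v : ℕ → (Fin n → ℂ)}
    (h : IsTrace n s g (fun k : Fin n => (Pi.single k 1 : Fin n → ℂ)) v)
    (hrows : HasRows v) (κ : Submodule ℚ (Fin n → ℚ) → ℕ)
    (hmono : ∀ H H' : Submodule ℚ (Fin n → ℚ), H' ≤ H → κ H' ≤ κ H)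
    (hstrict : ∀ H H' : Submodule ℚ (Fin n → ℚ), H' ≤ H → κ H' = κ H →
      relSub (row n) H' ≤ relSub (row n) H) :
    2 * n ≤ (smulSet s g).card + κ ⊤ + 2 * (Nat.divisors n).card := by
  have h1 := potential_bound h hrows κ hmono hstrict ⊤
  rw [top_inf_eq, finrank_top, Module.finrank_fintype_fun_eq_card, Fintype.card_fin] at h1
  have h2 := finrank_radSub_le (n := n)
  have h3 := finrank_relSub_top_le (n := n)
  omega

end Vale.Agent.Lib.P344
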