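import Vale.Agent.Lib.P344.Base

/-!
# Rows of the Fourier matrix are pairwise non-proportional on large sets of columns
-/

namespace Vale.Agent.Lib.P344

variable {n : ℕ}

theorem rows_not_propOn (hn : 2 ≤ n) (S : Finset (Fin n)) (hS : n / n.minFac < S.card)
    (r r' : Fin n) (hrr : r ≠ r') : ¬ PropOn S (row n r) (row n r') := by
  rintro ⟨c, hc, hprop⟩
  have hζ := zeta_isPrimitiveRoot (n := n) (by omega)
  have hdvd : ∀ l ∈ S, ∀ l' ∈ S, (n : ℤ) ∣ ((r : ℕ) - (r' : ℕ) : ℤ) * ((l : ℕ) - (l' : ℕ) : ℤ) := by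
    intro l hl l' hl'
    have h1 := hprop l hl
    have h2 := hprop l' hl'
    simp only [row] at h1 h2
    have h3 : zeta n ^ ((r : ℕ) * l + r' * l') = zeta n ^ ((r : ℕ) * l' + r' * l) := by
      rw [pow_add, pow_add, h1, h2]
      ring
    rw [← pow_mod_of_primitive hζ, ← pow_mod_of_primitive hζ ((r : ℕ) * l' + r' * l)] at h3
    have h3' : ((r : ℕ) * l + r' * l') ≡ ((r : ℕ) * l' + r' * l) [MOD n] :=
      hζ.pow_inj (Nat.mod_lt _ (by omega)) (Nat.mod_lt _ (by omega)) h3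
    have h4 := (Nat.modEq_iff_dvd.mp h3')
    have h5 : ((r : ℕ) - (r' : ℕ) : ℤ) * ((l : ℕ) - (l' : ℕ) : ℤ)
        = - (((((r : ℕ) * l' + r' * l : ℕ)) : ℤ) - (((r : ℕ) * l + r' * l' : ℕ) : ℤ)) := by
      push_cast
      ring
    rw [h5]
    exact (dvd_neg).mpr h4
  set T : ℕ := ((r : ℕ) - (r' : ℕ) : ℤ).natAbs with hT
  have hT0 : 0 < T := by
    have : (r : ℕ) ≠ (r' : ℕ) := fun h => hrr (Fin.ext h)
    omega
  have hTn : T < n := by
    have h1 := r.2
    have h2 := r'.2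
    omega
  set gg : ℕ := Nat.gcd T n with hgg
  have hg0 : 0 < gg := Nat.gcd_pos_of_pos_left _ hT0
  have hgT : gg ≤ T := Nat.gcd_le_left _ hT0
  set e : ℕ := n / gg with he
  have hne : gg * e = n := Nat.mul_div_cancel' (Nat.gcd_dvd_right T n)
  have he2 : 2 ≤ e := by
    by_contra hlt
    have : e ≤ 1 := by omega
    have : gg * e ≤ gg * 1 := Nat.mul_le_mul_left _ this
    omega
  have hedvd : e ∣ n := ⟨gg, by rw [mul_comm]; exact hne.symm⟩
  have hcop : Nat.Coprime e (T / gg) := (Nat.coprime_div_gcd_div_gcd hg0).symm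
  have hTg : gg * (T / gg) = T := Nat.mul_div_cancel' (Nat.gcd_dvd_left T n)
  have hediff : ∀ l ∈ S, ∀ l' ∈ S, (e : ℤ) ∣ ((l' : ℕ) : ℤ) - ((l : ℕ) : ℤ) := by
    intro l hl l' hl'
    have h1 := hdvd l' hl' l hl
    rw [Int.natCast_dvd, Int.natAbs_mul, ← hT] at h1
    rw [Int.natCast_dvd]
    have h2 : gg * e ∣ gg * ((T / gg) * (((l' : ℕ) : ℤ) - ((l : ℕ) : ℤ)).natAbs) := by
      rw [hne, ← mul_assoc, hTg]
      exact h1
    have h3 := Nat.dvd_of_mul_dvd_mul_left hg0 h2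
    exact hcop.dvd_of_dvd_mul_left h3
  have hcard : S.card ≤ n / e := by
    have := Finset.card_le_card_of_injOn (s := S) (t := Finset.range (n / e))
      (fun l : Fin n => (l : ℕ) / e) ?_ ?_
    · simpa using this
    · intro l _
      simp only [Finset.coe_range, Set.mem_Iio]
      exact Nat.div_lt_div_of_lt_of_dvd hedvd l.2
    · intro l hl l' hl' hll
      simp only at hll
      have hmod : (l : ℕ) % e = (l' : ℕ) % e := (Nat.modEq_iff_dvd.mpr (hediff l hl l' hl'))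
      apply Fin.ext
      rw [← Nat.div_add_mod (l : ℕ) e, ← Nat.div_add_mod (l' : ℕ) e, hll, hmod]
  have hle : n / e ≤ n / n.minFac :=
    Nat.div_le_div_left (Nat.minFac_le_of_dvd he2 hedvd) (Nat.minFac_pos n)
  omega

end Vale.Agent.Lib.P344
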