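import Vale.Agent.Lib.P344.Galois

/-!
# The number of scalar gates: the dimension bound `n - d(n)`
-/

namespace Vale.Agent.Lib.P344

/-- Is the gate a scalar multiplication? -/
def Gate.isSmul : Gate → Bool
  | Gate.smul _ _ => true
  | _ => false

/-- Positions of the scalar gates. -/
def smulSet (s : ℕ) (g : ℕ → Gate) : Finset ℕ :=
  (Finset.range s).filter (fun k => (g k).isSmul = true)

/-- Positions of the additive gates. -/
def addSet (s : ℕ) (g : ℕ → Gate) : Finset ℕ :=
  (Finset.range s).filter (fun k => ¬ (g k).isSmul = true)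

theorem card_smulSet_add_card_addSet (s : ℕ) (g : ℕ → Gate) :
    (smulSet s g).card + (addSet s g).card = s := by
  have := Finset.card_filter_add_card_filter_not (s := Finset.range s)
    (fun k => (g k).isSmul = true)
  simpa [smulSet, addSet] using this

/-- case analysis on the index of a node -/
theorem node_cases (n s m : ℕ) :
    (∃ i : Fin n, m = i) ∨ m = n ∨ (∃ k < s, m = n + 1 + k) ∨ n + 1 + s ≤ m := by
  by_cases h1 : m < n
  · exact Or.inl ⟨⟨m, h1⟩, rfl⟩
  by_cases h2 : m = n
  · exact Or.inr (Or.inl h2)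
  by_cases h3 : m < n + 1 + s
  · exact Or.inr (Or.inr (Or.inl ⟨m - (n + 1), by omega, by omega⟩))
  · exact Or.inr (Or.inr (Or.inr (by omega)))

theorem trace_mem_span {n s : ℕ} {g : ℕ → Gate} {v : ℕ → (Fin n → ℂ)}
    (h : IsTrace n s g (fun k : Fin n => (Pi.single k 1 : Fin n → ℂ)) v) (m : ℕ) :
    v m ∈ Submodule.span ℚ
      ((Set.range (fun k : Fin n => (Pi.single k 1 : Fin n → ℂ))) ∪
        ((fun k => v (n + 1 + k)) '' (smulSet s g : Set ℕ))) := by
  induction m using Nat.strong_induction_on with
  | _ m ih =>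
    rcases node_cases n s m with ⟨i, rfl⟩ | rfl | ⟨k, hk, rfl⟩ | hm
    · rw [h.inp]
      exact Submodule.subset_span (Or.inl ⟨i, rfl⟩)
    · rw [h.zero]; exact Submodule.zero_mem _
    · have aux : ∀ i, (if i < n + 1 + k then v i else 0) ∈ Submodule.span ℚ
          ((Set.range (fun k : Fin n => (Pi.single k 1 : Fin n → ℂ))) ∪
            ((fun k => v (n + 1 + k)) '' (smulSet s g : Set ℕ))) := by
        intro i
        split_ifs with hi
        · exact ih i hi
        · exact Submodule.zero_mem _
      cases hg : g k with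
      | add i j =>
        rw [h.gate k hk, hg]
        exact Submodule.add_mem _ (aux i) (aux j)
      | sub i j =>
        rw [h.gate k hk, hg]
        exact Submodule.sub_mem _ (aux i) (aux j)
      | smul c i =>
        refine Submodule.subset_span (Or.inr ⟨k, ?_, rfl⟩)
        exact Finset.mem_coe.mpr (Finset.mem_filter.mpr ⟨Finset.mem_range.mpr hk, by rw [hg]; rfl⟩)
    · rw [h.beyond m hm]; exact Submodule.zero_mem _

/-- The row of the Fourier matrix with index `j`. -/
noncomputable def frow (n : ℕ) (j : ZMod n) : Fin n → ℂ := fun k => zeta n ^ (j.val * (k : ℕ))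

/-- representatives of the orbits of the units on `ZMod n` -/
noncomputable def reps (n : ℕ) : Finset (ZMod n) := (Nat.divisors n).image (fun d : ℕ => (d : ZMod n))

theorem card_reps_le (n : ℕ) : (reps n).card ≤ (Nat.divisors n).card := Finset.card_image_le

theorem linearIndependent_rows (n : ℕ) [NeZero n] :
    LinearIndependent ℚ (Sum.elim (fun k : Fin n => (Pi.single k 1 : Fin n → ℂ))
      (fun j : {j : ZMod n // j ∉ reps n} => frow n j)) := by
  classical
  have hζ := zeta_isPrimitiveRoot (NeZero.ne n)
  rw [Fintype.linearIndependent_iff]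
  intro f hf
  rw [Fintype.sum_sum_type] at hf
  simp only [Sum.elim_inl, Sum.elim_inr] at hf
  -- the extension of the coefficients by zero
  set c : ZMod n → ℚ := fun j => if hj : j ∉ reps n then f (Sum.inr ⟨j, hj⟩) else 0 with hc
  have hcoord : ∀ k : Fin n, (f (Sum.inl k) : ℂ)
      + ∑ j : ZMod n, (c j : ℂ) * zeta n ^ (j.val * (k : ℕ)) = 0 := by
    intro k
    have := congrFun hf k
    simp only [Pi.add_apply, Finset.sum_apply, Pi.smul_apply, Pi.zero_apply] at this
    rw [← this]
    congr 1
    · rw [Finset.sum_eq_single k]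
      · simp [Rat.smul_def]
      · intro b _ hb
        simp [hb.symm]
      · intro hk; exact absurd (Finset.mem_univ _) hk
    · rw [← Fintype.sum_subtype_add_sum_subtype (fun j : ZMod n => j ∉ reps n)
        (fun j : ZMod n => (c j : ℂ) * zeta n ^ (j.val * (k : ℕ)))]
      have hz : ∑ j : {j : ZMod n // ¬ (j ∉ reps n)}, (c j : ℂ) * zeta n ^ ((j : ZMod n).val * (k : ℕ)) = 0 := by
        refine Finset.sum_eq_zero fun j _ => ?_
        simp [hc, j.2]
      rw [hz, add_zero]
      refine Finset.sum_congr rfl fun j _ => ?_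
      simp [hc, j.2, frow, Rat.smul_def]
  have hinv : ∀ (u : (ZMod n)ˣ) (j : ZMod n), c ((u : ZMod n) * j) = c j := by
    refine coeff_unit_invariant hζ c ?_
    intro k
    refine ⟨- f (Sum.inl k), ?_⟩
    have := hcoord k
    push_cast
    linear_combination this
  have hc0 : ∀ j, c j = 0 := by
    intro j
    obtain ⟨d, hd, u, hu, rfl⟩ := ZMod.eq_unit_mul_divisor j
    obtain ⟨u, rfl⟩ := hu
    rw [hinv]
    have : (d : ZMod n) ∈ reps n :=
      Finset.mem_image.mpr ⟨d, Nat.mem_divisors.mpr ⟨hd, NeZero.ne n⟩, rfl⟩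
    simp [hc, this]
  intro i
  rcases i with k | j
  · have := hcoord k
    simp only [hc0, Rat.cast_zero, zero_mul, Finset.sum_const_zero, add_zero] at this
    exact_mod_cast this
  · have := hc0 j
    simpa [hc, j.2] using this

/-- The number of scalar gates of a circuit computing the Fourier transform. -/
theorem card_smulSet_ge {n s : ℕ} [NeZero n] {g : ℕ → Gate} {v : ℕ → (Fin n → ℂ)}
    (h : IsTrace n s g (fun k : Fin n => (Pi.single k 1 : Fin n → ℂ)) v)
    (hout : ∀ j : ZMod n, ∃ m, v m = frow n j) :
    n ≤ (smulSet s g).card + (Nat.divisors n).card := by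
  classical
  set T : Finset (Fin n → ℂ) :=
    (Finset.univ.image (fun k : Fin n => (Pi.single k 1 : Fin n → ℂ))) ∪
      ((smulSet s g).image (fun k => v (n + 1 + k))) with hT
  have hTcard : T.card ≤ n + (smulSet s g).card := by
    refine (Finset.card_union_le _ _).trans ?_
    refine add_le_add ?_ Finset.card_image_le
    exact Finset.card_image_le.trans (by simp)
  have hTset : (T : Set (Fin n → ℂ)) = (Set.range (fun k : Fin n => (Pi.single k 1 : Fin n → ℂ))) ∪
        ((fun k => v (n + 1 + k)) '' (smulSet s g : Set ℕ)) := by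
    simp [hT]
  have hsub : Set.range (Sum.elim (fun k : Fin n => (Pi.single k 1 : Fin n → ℂ))
      (fun j : {j : ZMod n // j ∉ reps n} => frow n j)) ≤ Submodule.span ℚ (T : Set (Fin n → ℂ)) := by
    rintro _ ⟨i, rfl⟩
    rw [hTset]
    rcases i with k | j
    · exact Submodule.subset_span (Or.inl ⟨k, rfl⟩)
    · obtain ⟨m, hm⟩ := hout j
      simp only [Sum.elim_inr]
      rw [← hm]
      exact trace_mem_span h m
  have := linearIndependent_le_span_aux' _ (linearIndependent_rows n) (T : Set (Fin n → ℂ)) hsub
  rw [Fintype.card_sum, Fintype.card_fin] at this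
  have h4 : Fintype.card {j : ZMod n // j ∉ reps n} = n - (reps n).card := by
    rw [Fintype.card_subtype_compl, ZMod.card, Fintype.card_coe]
  have h5 : Fintype.card ((T : Set (Fin n → ℂ)) : Type) = T.card := by
    simp
  have h2 := card_reps_le n
  omega

end Vale.Agent.Lib.P344
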