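import Vale.Agent.Lib.P344.Defs

/-!
# From the list semantics of circuits to a trace indexed by natural numbers
-/

namespace Vale.Agent.Lib.P344

section
variable {M : Type} [AddCommGroup M] [Module ℂ M]

theorem run_length (gs : List Gate) (vals : List M) :
    (run gs vals).length = vals.length + gs.length := by
  induction gs generalizing vals with
  | nil => simp [run]
  | cons g gs ih =>
    simp only [run, ih, List.length_append, List.length_cons, List.length_nil]
    omega

theorem run_getD_of_lt (gs : List Gate) (vals : List M) (i : ℕ) (h : i < vals.length) :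
    (run gs vals).getD i 0 = vals.getD i 0 := by
  induction gs generalizing vals with
  | nil => simp [run]
  | cons g gs ih =>
    simp only [run]
    rw [ih _ (by simp; omega)]
    simp [List.getD_eq_getElem?_getD, List.getElem?_append_left h]

theorem run_getD_gate (d : Gate) (gs : List Gate) (vals : List M) (k : ℕ) (h : k < gs.length) :
    (run gs vals).getD (vals.length + k) 0 =
      (gs.getD k d).eval (fun i => if i < vals.length + k then (run gs vals).getD i 0 else 0) := by
  induction gs generalizing vals k with
  | nil => simp at h
  | cons g gs ih =>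
    simp only [run]
    cases k with
    | zero =>
      rw [Nat.add_zero, run_getD_of_lt _ _ _ (by simp)]
      simp only [List.getD_cons_zero]
      have h1 : (vals ++ [g.eval (fun i => vals.getD i 0)]).getD vals.length 0
          = g.eval (fun i => vals.getD i 0) := by
        simp [List.getD_eq_getElem?_getD]
      rw [h1]
      congr 1
      funext i
      split_ifs with hi
      · rw [run_getD_of_lt _ _ _ (by simp; omega)]
        simp [List.getD_eq_getElem?_getD, List.getElem?_append_left hi]
      · simp [List.getD_eq_getElem?_getD, List.getElem?_eq_none (not_lt.mp hi)]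
    | succ k =>
      have h' : k < gs.length := by simpa using h
      have := ih (vals ++ [g.eval (fun i => vals.getD i 0)]) k h'
      have e : (vals ++ [g.eval (fun i => vals.getD i 0)]).length + k = vals.length + (k + 1) := by
        simp; omega
      rw [e] at this
      rw [this]
      simp

theorem run_getD_beyond (gs : List Gate) (vals : List M) (i : ℕ)
    (h : vals.length + gs.length ≤ i) : (run gs vals).getD i 0 = 0 := by
  rw [List.getD_eq_getElem?_getD, List.getElem?_eq_none (by rw [run_length]; exact h)]
  rfl

end

/-- An abstract trace of a straight-line computation with `n` inputs `x` and `s` gates `g`. -/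
structure IsTrace {M : Type} [AddCommGroup M] [Module ℂ M] (n s : ℕ) (g : ℕ → Gate)
    (x : Fin n → M) (v : ℕ → M) : Prop where
  inp : ∀ i : Fin n, v i = x i
  zero : v n = 0
  gate : ∀ k < s, v (n + 1 + k) = (g k).eval (fun i => if i < n + 1 + k then v i else 0)
  beyond : ∀ i, n + 1 + s ≤ i → v i = 0

section
variable {M : Type} [AddCommGroup M] [Module ℂ M]

theorem Circuit.isTrace {n : ℕ} (C : Circuit n) (x : Fin n → M) :
    IsTrace n C.size (fun k => C.gates.getD k (Gate.add 0 0)) x
      (fun i => (C.values x).getD i 0) := by
  have hlen : (List.ofFn x ++ [(0 : M)]).length = n + 1 := by simp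
  refine ⟨?_, ?_, ?_, ?_⟩
  · intro i
    simp only [Circuit.values]
    rw [run_getD_of_lt _ _ _ (by rw [hlen]; omega)]
    have : (i : ℕ) < (List.ofFn x).length := by simp
    simp [List.getD_eq_getElem?_getD, List.getElem?_append_left this]
  · simp only [Circuit.values]
    rw [run_getD_of_lt _ _ _ (by rw [hlen]; omega)]
    simp [List.getD_eq_getElem?_getD]
  · intro k hk
    have := run_getD_gate (Gate.add 0 0) C.gates (List.ofFn x ++ [(0 : M)]) k hk
    rw [hlen] at this
    exact this
  · intro i hi
    simp only [Circuit.values]
    apply run_getD_beyond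
    rw [hlen]
    exact hi

theorem Gate.eval_map {M' : Type} [AddCommGroup M'] [Module ℂ M'] (f : M →ₗ[ℂ] M') (g : Gate)
    (v : ℕ → M) : f (g.eval v) = g.eval (fun i => f (v i)) := by
  cases g <;> simp [Gate.eval]

theorem run_map {M' : Type} [AddCommGroup M'] [Module ℂ M'] (f : M →ₗ[ℂ] M') (gs : List Gate)
    (vals : List M) : run gs (vals.map f) = (run gs vals).map f := by
  induction gs generalizing vals with
  | nil => simp [run]
  | cons g gs ih =>
    simp only [run]
    rw [← ih]
    congr 1
    simp only [List.map_append, List.map_cons, List.map_nil]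
    congr 2
    rw [Gate.eval_map]
    congr 1
    funext i
    simp only [List.getD_eq_getElem?_getD, List.getElem?_map]
    cases vals[i]? <;> simp

end

/-- The coefficient vectors of the node values of a circuit. -/
noncomputable def Circuit.coeff {n : ℕ} (C : Circuit n) : ℕ → (Fin n → ℂ) :=
  fun i => (C.values (fun k : Fin n => (Pi.single k 1 : Fin n → ℂ))).getD i 0

theorem Circuit.coeff_isTrace {n : ℕ} (C : Circuit n) :
    IsTrace n C.size (fun k => C.gates.getD k (Gate.add 0 0))
      (fun k : Fin n => (Pi.single k 1 : Fin n → ℂ)) C.coeff :=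
  C.isTrace _

theorem Circuit.values_eq_coeff {n : ℕ} (C : Circuit n) (x : Fin n → ℂ) (i : ℕ) :
    (C.values x).getD i 0 = ∑ k, C.coeff i k * x k := by
  let f : (Fin n → ℂ) →ₗ[ℂ] ℂ :=
    { toFun := fun c => ∑ k, c k * x k
      map_add' := by intro a b; simp [add_mul, Finset.sum_add_distrib]
      map_smul' := by intro a b; simp [Finset.mul_sum, mul_assoc] }
  have h1 : (List.ofFn x ++ [(0 : ℂ)])
      = (List.ofFn (fun k : Fin n => (Pi.single k 1 : Fin n → ℂ)) ++ [0]).map f := by
    simp only [List.map_append, List.map_ofFn, List.map_cons, List.map_nil, map_zero]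
    congr 2
    funext k
    simp [f, Pi.single_apply]
  simp only [Circuit.values, Circuit.coeff]
  rw [h1, run_map]
  simp only [List.getD_eq_getElem?_getD, List.getElem?_map]
  cases (run C.gates (List.ofFn (fun k : Fin n => (Pi.single k 1 : Fin n → ℂ)) ++ [0]))[i]? <;>
    simp [f]

theorem Circuit.ComputesDFT.coeff_out {n : ℕ} {C : Circuit n} (h : C.ComputesDFT) (j : Fin n) :
    C.coeff (C.out j) = fun k : Fin n => zeta n ^ ((j : ℕ) * (k : ℕ)) := by
  funext k
  have := h (Pi.single k 1) j
  rw [Circuit.values_eq_coeff] at this
  simpa [Pi.single_apply] using this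

end Vale.Agent.Lib.P344
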